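import Vale.Agent.P273.H803.LegZ

/-!
# P273, LIM-G [C]: the harmonic potential in a neck, in arbitrary real coordinates

`E` = any real normed space of coordinates, `S Θ y α : E → ℝ` the logarithmic coordinates of the
point and of the neck: `X = exp (- S + i Θ)`, `Y = exp (- (y - S) + i (α - Θ))`, `X Y = ε`.
`UN = ξ + w (1 - 2 S / y) - (β / π) (Θ - α / 2) + Re (X h(p, X) c) - Re (Y h(p, Y) c)`.
-/

open Set Filter Topology Metric Complex

noncomputable section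

namespace Vale.Agent.P273.H803

variable {E P W : Type*} [NormedAddCommGroup E] [NormedSpace ℝ E]
  [NormedAddCommGroup P] [NormedSpace ℝ P] [NormedAddCommGroup W] [NormedSpace ℂ W]

/-- `exp (- S + i Θ)` -/
def ex (S Θ : E → ℝ) (q : E) : ℂ := cexp (-(S q : ℂ) + I * (Θ q : ℂ))

/-- the real-linear form `- S' + i Θ'` -/
def lf (S' Θ' : E →L[ℝ] ℝ) : E →L[ℝ] ℂ :=
  -(Complex.ofRealCLM.comp S') + I • (Complex.ofRealCLM.comp Θ')

omit [NormedSpace ℝ E] in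
theorem norm_ex (S Θ : E → ℝ) (q : E) : ‖ex S Θ q‖ = Real.exp (-(S q)) := by
  unfold ex
  rw [Complex.norm_exp]
  simp

theorem lf_apply (S' Θ' : E →L[ℝ] ℝ) (v : E) : lf S' Θ' v = -(S' v : ℂ) + I * (Θ' v : ℂ) := by
  simp [lf]

theorem norm_lf_le (S' Θ' : E →L[ℝ] ℝ) (v : E) : ‖lf S' Θ' v‖ ≤ |S' v| + |Θ' v| := by
  rw [lf_apply]
  refine (norm_add_le _ _).trans (le_of_eq ?_)
  rw [norm_neg, norm_mul, Complex.norm_I, one_mul, Complex.norm_real, Complex.norm_real]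
  rfl

theorem hasFDerivAt_ex {S Θ : E → ℝ} {S' Θ' : E →L[ℝ] ℝ} {q : E} (hS : HasFDerivAt S S' q)
    (hΘ : HasFDerivAt Θ Θ' q) : HasFDerivAt (ex S Θ) (ex S Θ q • lf S' Θ') q := by
  have h1 : HasFDerivAt (fun q => -(S q : ℂ) + I * (Θ q : ℂ)) (lf S' Θ') q := by
    have a1 : HasFDerivAt (fun q => (S q : ℂ)) (Complex.ofRealCLM.comp S') q :=
      Complex.ofRealCLM.hasFDerivAt.comp q hS
    have a2 : HasFDerivAt (fun q => (Θ q : ℂ)) (Complex.ofRealCLM.comp Θ') q :=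
      Complex.ofRealCLM.hasFDerivAt.comp q hΘ
    exact a1.neg.add (a2.const_mul I)
  exact h1.cexp

/-- the potential in a neck -/
def UN (h : P × ℂ → W →L[ℂ] ℂ) (ξ β : ℝ) (p : E → P) (S Θ y α w : E → ℝ) (c : E → W)
    (q : E) : ℝ :=
  ξ + w q * (1 - 2 * S q / y q) - β / Real.pi * (Θ q - α q / 2) +
    ((Zf h p (ex S Θ) c q).re - (Zf h p (ex (fun q => y q - S q) (fun q => α q - Θ q)) c q).re)

/-- the polyhedral part of the derivative -/
def UP (β : ℝ) (S0 y0 w0 : ℝ) (S' Θ' y' α' w' : E →L[ℝ] ℝ) : E →L[ℝ] ℝ :=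
  (1 - 2 * S0 / y0) • w' - (2 * w0 / y0) • (S' - (S0 / y0) • y') -
    (β / Real.pi) • (Θ' - (1 / 2 : ℝ) • α')

theorem UP_apply (β : ℝ) (S0 y0 w0 : ℝ) (S' Θ' y' α' w' : E →L[ℝ] ℝ) (v : E) :
    UP β S0 y0 w0 S' Θ' y' α' w' v = (1 - 2 * S0 / y0) * w' v -
      2 * w0 / y0 * (S' v - S0 / y0 * y' v) - β / Real.pi * (Θ' v - 1 / 2 * α' v) := rfl

theorem hasFDerivAt_UN {h : P × ℂ → W →L[ℂ] ℂ} {ξ β : ℝ} {p : E → P} {S Θ y α w : E → ℝ}
    {c : E → W} {hX' hY' : P × ℂ →L[ℝ] (W →L[ℂ] ℂ)} {p' : E →L[ℝ] P}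
    {S' Θ' y' α' w' : E →L[ℝ] ℝ} {c' : E →L[ℝ] W} {q : E} (hy0 : y q ≠ 0)
    (hX : HasFDerivAt h hX' (p q, ex S Θ q))
    (hY : HasFDerivAt h hY' (p q, ex (fun q => y q - S q) (fun q => α q - Θ q) q))
    (hp : HasFDerivAt p p' q) (hS : HasFDerivAt S S' q) (hΘ : HasFDerivAt Θ Θ' q)
    (hy : HasFDerivAt y y' q) (hα : HasFDerivAt α α' q) (hw : HasFDerivAt w w' q)
    (hc : HasFDerivAt c c' q) :
    HasFDerivAt (UN h ξ β p S Θ y α w c)
      (UP β (S q) (y q) (w q) S' Θ' y' α' w' +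
        (Complex.reCLM.comp (ZfD (h (p q, ex S Θ q)) hX' (ex S Θ q) (c q) p'
            (ex S Θ q • lf S' Θ') c') -
          Complex.reCLM.comp (ZfD (h (p q, ex (fun q => y q - S q) (fun q => α q - Θ q) q)) hY'
            (ex (fun q => y q - S q) (fun q => α q - Θ q) q) (c q) p'
            (ex (fun q => y q - S q) (fun q => α q - Θ q) q • lf (y' - S') (α' - Θ')) c'))) q := by
  have e1 := hasFDerivAt_Zf hX hp (hasFDerivAt_ex hS hΘ) hc
  have e2 := hasFDerivAt_Zf hY hp (hasFDerivAt_ex (hy.sub hS) (hα.sub hΘ)) hc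
  have e1' : HasFDerivAt (fun q => (Zf h p (ex S Θ) c q).re) _ q :=
    Complex.reCLM.hasFDerivAt.comp q e1
  have e2' : HasFDerivAt
      (fun q => (Zf h p (ex (fun q => y q - S q) (fun q => α q - Θ q)) c q).re) _ q :=
    Complex.reCLM.hasFDerivAt.comp q e2
  have e3 : HasFDerivAt (fun q => 2 * S q / y q)
      ((2 / y q) • (S' - (S q / y q) • y')) q := by
    have h1 : HasFDerivAt (fun q => (y q)⁻¹) (-(y q ^ 2)⁻¹ • y') q := by
      have := (hasDerivAt_inv hy0).comp_hasFDerivAt q hy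
      exact this
    have h2 := (hS.const_mul 2).mul h1
    have h3 : (fun q => 2 * S q / y q) = fun q => 2 * S q * (y q)⁻¹ := by
      funext q
      rw [div_eq_mul_inv]
    rw [h3]
    refine h2.congr_fderiv ?_
    ext v
    simp only [ContinuousLinearMap.add_apply, ContinuousLinearMap.smul_apply,
      ContinuousLinearMap.sub_apply, smul_eq_mul]
    field_simp
    ring
  have e4 : HasFDerivAt (fun q => w q * (1 - 2 * S q / y q))
      (w q • (0 - (2 / y q) • (S' - (S q / y q) • y')) + (1 - 2 * S q / y q) • w') q :=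
    hw.mul ((hasFDerivAt_const (1 : ℝ) q).sub e3)
  have e5 : HasFDerivAt (fun q => β / Real.pi * (Θ q - α q / 2))
      ((β / Real.pi) • (Θ' - (1 / 2 : ℝ) • α')) q := by
    have h1 : HasFDerivAt (fun q => α q / 2) ((1 / 2 : ℝ) • α') q := by
      have h2 := hα.const_mul (1 / 2 : ℝ)
      have h3 : (fun q => α q / 2) = fun q => 1 / 2 * α q := by
        funext q
        ring
      rw [h3]
      exact h2
    exact (hΘ.sub h1).const_mul _
  have e6 := ((((hasFDerivAt_const ξ q).add e4).sub e5).add (e1'.sub e2'))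
  refine e6.congr_fderiv ?_
  ext v
  simp only [UP, ContinuousLinearMap.add_apply, ContinuousLinearMap.smul_apply,
    ContinuousLinearMap.sub_apply, smul_eq_mul, ContinuousLinearMap.zero_apply]
  ring

/-- **the bound of the derivative of the potential in a neck**, every direction `v` -/
theorem UN_bound {h0 h1 : W →L[ℂ] ℂ} {hX' hY' : P × ℂ →L[ℝ] (W →L[ℂ] ℂ)} {A β S0 y0 w0 : ℝ}
    {X0 Y0 : ℂ} {c0 : W} {p' : E →L[ℝ] P} {S' Θ' y' α' w' : E →L[ℝ] ℝ} {c' : E →L[ℝ] W}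
    (a0 : ‖h0‖ ≤ A) (a1 : ‖h1‖ ≤ A) (aX : ‖hX'‖ ≤ A) (aY : ‖hY'‖ ≤ A) (bX : ‖X0‖ ≤ 1)
    (bY : ‖Y0‖ ≤ 1) (hS0 : 0 ≤ S0) (hS1 : S0 ≤ y0) (hy0 : 0 < y0) (v : E) :
    |(UP β S0 y0 w0 S' Θ' y' α' w' +
        (Complex.reCLM.comp (ZfD h0 hX' X0 c0 p' (X0 • lf S' Θ') c') -
          Complex.reCLM.comp (ZfD h1 hY' Y0 c0 p' (Y0 • lf (y' - S') (α' - Θ')) c'))) v| ≤
      |w' v| + 2 * |w0| / y0 * |S' v - S0 / y0 * y' v| +
        |β| / Real.pi * |Θ' v - 1 / 2 * α' v| +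
        A * ‖X0‖ * (‖c0‖ * (2 * (|S' v| + |Θ' v|) + ‖p' v‖) + ‖c' v‖) +
        A * ‖Y0‖ * (‖c0‖ * (2 * (|y' v - S' v| + |α' v - Θ' v|) + ‖p' v‖) + ‖c' v‖) := by
  have hA : 0 ≤ A := (norm_nonneg _).trans a0
  have e0 : (UP β S0 y0 w0 S' Θ' y' α' w' +
        (Complex.reCLM.comp (ZfD h0 hX' X0 c0 p' (X0 • lf S' Θ') c') -
          Complex.reCLM.comp (ZfD h1 hY' Y0 c0 p' (Y0 • lf (y' - S') (α' - Θ')) c'))) v =
      ((1 - 2 * S0 / y0) * w' v - 2 * w0 / y0 * (S' v - S0 / y0 * y' v) -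
        β / Real.pi * (Θ' v - 1 / 2 * α' v)) +
      ((ZfD h0 hX' X0 c0 p' (X0 • lf S' Θ') c' v).re -
        (ZfD h1 hY' Y0 c0 p' (Y0 • lf (y' - S') (α' - Θ')) c' v).re) := rfl
  rw [e0]
  have f1 : |(ZfD h0 hX' X0 c0 p' (X0 • lf S' Θ') c' v).re| ≤
      A * ‖X0‖ * (‖c0‖ * (2 * (|S' v| + |Θ' v|) + ‖p' v‖) + ‖c' v‖) := by
    refine (Complex.abs_re_le_norm _).trans ((norm_ZfD_le_log a0 aX bX v).trans ?_)
    have := norm_lf_le S' Θ' v
    gcongr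
  have f2 : |(ZfD h1 hY' Y0 c0 p' (Y0 • lf (y' - S') (α' - Θ')) c' v).re| ≤
      A * ‖Y0‖ * (‖c0‖ * (2 * (|y' v - S' v| + |α' v - Θ' v|) + ‖p' v‖) + ‖c' v‖) := by
    refine (Complex.abs_re_le_norm _).trans ((norm_ZfD_le_log a1 aY bY v).trans ?_)
    have := norm_lf_le (y' - S') (α' - Θ') v
    rw [ContinuousLinearMap.sub_apply, ContinuousLinearMap.sub_apply] at this
    gcongr
  have f3 : |(1 - 2 * S0 / y0) * w' v| ≤ |w' v| := by
    rw [abs_mul]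
    refine mul_le_of_le_one_left (abs_nonneg _) ?_
    have g1 : 0 ≤ S0 / y0 := div_nonneg hS0 hy0.le
    have g2 : S0 / y0 ≤ 1 := (div_le_one hy0).2 hS1
    have g3 : 2 * S0 / y0 = 2 * (S0 / y0) := by ring
    rw [abs_le, g3]
    constructor <;> linarith
  have f4 : |2 * w0 / y0 * (S' v - S0 / y0 * y' v)| = 2 * |w0| / y0 * |S' v - S0 / y0 * y' v| := by
    rw [abs_mul, abs_div, abs_mul, abs_of_pos hy0, abs_of_pos (by norm_num : (0 : ℝ) < 2)]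
  have f5 : |β / Real.pi * (Θ' v - 1 / 2 * α' v)| = |β| / Real.pi * |Θ' v - 1 / 2 * α' v| := by
    rw [abs_mul, abs_div, abs_of_pos Real.pi_pos]
  have g1 := abs_add_le ((1 - 2 * S0 / y0) * w' v - 2 * w0 / y0 * (S' v - S0 / y0 * y' v) -
        β / Real.pi * (Θ' v - 1 / 2 * α' v))
      ((ZfD h0 hX' X0 c0 p' (X0 • lf S' Θ') c' v).re -
        (ZfD h1 hY' Y0 c0 p' (Y0 • lf (y' - S') (α' - Θ')) c' v).re)
  have g2 := abs_sub ((1 - 2 * S0 / y0) * w' v - 2 * w0 / y0 * (S' v - S0 / y0 * y' v))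
        (β / Real.pi * (Θ' v - 1 / 2 * α' v))
  have g3 := abs_sub ((1 - 2 * S0 / y0) * w' v) (2 * w0 / y0 * (S' v - S0 / y0 * y' v))
  have g4 := abs_sub (ZfD h0 hX' X0 c0 p' (X0 • lf S' Θ') c' v).re
        (ZfD h1 hY' Y0 c0 p' (Y0 • lf (y' - S') (α' - Θ')) c' v).re
  rw [f4] at g3
  rw [f5] at g2
  linarith

end Vale.Agent.P273.H803
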