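import Vale.Agent.P273.H803.AsyL

/-!
# P273, crew ASY0: the fields of `Asy` for a class of marks

* `AsyQ Q κ lg`: the fields of `AsyL` for the marks with `Q R S j`; `AsyQ.or`, `AsyQ.asyL`;
* `Neck`, `Core`: marks of the necks, marks of the cores.
-/

noncomputable section

namespace Vale.Agent.P273.H803

open Set Filter H681 H95 H732 H562 H973
open scoped Topology ContDiff

/-- classes of marks -/
abbrev MarkP : Type := H95.Region → (L → Bool) → L → Prop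

/-- the fields of `Asy` for the marks in `Q` -/
structure AsyQ (Q : MarkP) (κ : Fin 3 → Fin 3 → ℝ) (lg : LegF) : Prop where
  b1 : ∃ K N₀ : ℝ, 1 ≤ N₀ ∧ ∀ R m S, FarOk R S → ∀ p, Adm R m S N₀ p → ∀ j, Q R S j →
    ∀ ξ, IsCl ξ → ∀ d : (W R m).Dir R.Cm, (∀ k, d ≠ .y k) →
      |lg R m S j ξ p ((W R m).vec d)| ≤ K * ‖ξ‖
  b2 : ∃ K N₀ : ℝ, 1 ≤ N₀ ∧ ∀ R m S, FarOk R S → ∀ p, Adm R m S N₀ p → ∀ j, Q R S j →
    ∀ ξ, IsCl ξ → ∀ f : (W R m).Fr, ∀ d : (W R m).Dir R.Cm, (d = .u f ∨ d = .ph f) →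
      |lg R m S j ξ p ((W R m).vec d)| ≤ K * (|bt ξ ((W R m).nk f.1)| +
        ‖ξ‖ * (1 / p.2.2.1 ((W R m).nk f.1) + Real.exp (-p.1 f)))
  b4 : ∃ K N₀ : ℝ, 1 ≤ N₀ ∧ ∀ R m S, FarOk R S → ∀ p, Adm R m S N₀ p → ∀ j, Q R S j →
    ∀ ξ, IsCl ξ → ∀ k, |lg R m S j ξ p ((W R m).vec (.al k))| ≤
      K * (|bt ξ k| + ‖ξ‖ / p.2.2.1 k)
  b5 : ∃ K N₀ : ℝ, 1 ≤ N₀ ∧ ∀ R m S, FarOk R S → ∀ p, Adm R m S N₀ p → ∀ j, Q R S j →
    ∀ ξ, IsCl ξ → ∀ k, |lg R m S j ξ p ((W R m).eul p k)| ≤ K * (‖ξ‖ / p.2.2.1 k)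
  b6 : ∃ K N₀ : ℝ, 1 ≤ N₀ ∧ ∀ R m S, FarOk R S → ∀ p, Adm R m S N₀ p → ∀ j, Q R S j →
    ∀ ξ, IsCl ξ → (∀ k, bt ξ k = 0) →
    (∀ d : (W R m).Dir R.Cm, (∀ k, d ≠ .y k) →
      |lg R m S j ξ p ((W R m).vec d)| ≤ K * ww ξ p.2.2.1) ∧
    ∀ k, |lg R m S j ξ p ((W R m).eul p k)| ≤
      K * (ww ξ p.2.2.1 * (mn p.2.2.1 / p.2.2.1 k))
  limN : ∀ R m S, FarOk R S → ∀ (B : Set (W R m).Fr) (p : Co R m), Gen R m S B p →
    (∀ k, 0 < p.2.2.1 k) → ∀ (j : L), Q R S j → ∀ (k : Fin 3) (h : R.pl j = Sum.inl k)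
    (ξ : Fin 6 → ℝ), IsCl ξ → ∀ d : BDir R m, d.ok R m B →
    Tendsto (fun N : ℝ => d.sca R m N * lg R m S j ξ ((W R m).dpt B N p)
      (d.vec R m B ((W R m).dpt B N p))) atTop
      (𝓝 (legN κ R m ξ p.2.2.1 p.2.2.2.1 k (depl R m B p h) (wreg.LX R.Cm R.n m k (rkF R h)) d))
  limC : ∀ R m S, FarOk R S → ∀ (B : Set (W R m).Fr) (p : Co R m), Gen R m S B p →
    (∀ k, 0 < p.2.2.1 k) → ∀ (j : L), Q R S j → ∀ (b : Bool), R.pl j = Sum.inr b →
    ∀ ξ : Fin 6 → ℝ, IsCl ξ → ∀ d : BDir R m, d.ok R m B →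
    Tendsto (fun N : ℝ => d.sca R m N * lg R m S j ξ ((W R m).dpt B N p)
      (d.vec R m B ((W R m).dpt B N p))) atTop
      (𝓝 (legC κ R m ξ p.2.2.1 p.2.2.2.1 b d))
  lim0 : ∀ R m S, FarOk R S → ∀ (B : Set (W R m).Fr) (p : Co R m), Gen R m S B p →
    (∀ k, 0 < p.2.2.1 k) → ∀ (j : L), Q R S j → ∀ (ξ : Fin 6 → ℝ), IsCl ξ →
    (∀ k, bt ξ k = 0) →
    (∀ f ∈ B, Tendsto (fun N : ℝ => N * lg R m S j ξ ((W R m).dpt B N p)
      ((W R m).vec (.ph f))) atTop (𝓝 0)) ∧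
    ∀ l, Tendsto (fun N : ℝ => N * lg R m S j ξ ((W R m).dpt B N p)
      ((W R m).vec (.al l))) atTop (𝓝 0)

theorem adm_mono {R : H95.Region} {m : ∀ k, Fin (R.n k + 1)} {S : L → Bool} {N N' : ℝ}
    (h : N ≤ N') {p : Co R m} (hp : Adm R m S N' p) : Adm R m S N p :=
  ⟨hp.1, fun k => h.trans (hp.2.1 k), hp.2.2.1, hp.2.2.2⟩

theorem adm_y_pos {R : H95.Region} {m : ∀ k, Fin (R.n k + 1)} {S : L → Bool} {N : ℝ}
    (hN : 1 ≤ N) {p : Co R m} (hp : Adm R m S N p) (k : Fin 3) : 0 < p.2.2.1 k := by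
  have := hp.2.1 k
  linarith

theorem ww_nonneg (ξ : Fin 6 → ℝ) {y : Fin 3 → ℝ} (hy : ∀ k, 0 < y k) : 0 ≤ ww ξ y :=
  Finset.sum_nonneg fun k _ => div_nonneg (abs_nonneg _) (hy k).le

theorem mn_pos {y : Fin 3 → ℝ} (hy : ∀ k, 0 < y k) : 0 < mn y :=
  lt_min (hy 0) (lt_min (hy 1) (hy 2))

theorem one_le_mn {y : Fin 3 → ℝ} (hy : ∀ k, 1 ≤ y k) : 1 ≤ mn y :=
  le_min (hy 0) (le_min (hy 1) (hy 2))

theorem AsyQ.or {Q Q' : MarkP} {κ : Fin 3 → Fin 3 → ℝ} {lg : LegF} (h : AsyQ Q κ lg)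
    (h' : AsyQ Q' κ lg) : AsyQ (fun R S j => Q R S j ∨ Q' R S j) κ lg where
  b1 := by
    obtain ⟨K, N, hN, H⟩ := h.b1
    obtain ⟨K', N', hN', H'⟩ := h'.b1
    refine ⟨max K K', max N N', hN.trans (le_max_left _ _), ?_⟩
    intro R m S hS p hp j hj ξ hξ d hd
    rcases hj with hj | hj
    · exact (H R m S hS p (adm_mono (le_max_left _ _) hp) j hj ξ hξ d hd).trans
        (mul_le_mul_of_nonneg_right (le_max_left _ _) (norm_nonneg _))
    · exact (H' R m S hS p (adm_mono (le_max_right _ _) hp) j hj ξ hξ d hd).trans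
        (mul_le_mul_of_nonneg_right (le_max_right _ _) (norm_nonneg _))
  b2 := by
    obtain ⟨K, N, hN, H⟩ := h.b2
    obtain ⟨K', N', hN', H'⟩ := h'.b2
    refine ⟨max K K', max N N', hN.trans (le_max_left _ _), ?_⟩
    intro R m S hS p hp j hj ξ hξ f d hd
    have hy := adm_y_pos hN (adm_mono (le_max_left N N') hp) ((W R m).nk f.1)
    have h0 : 0 ≤ |bt ξ ((W R m).nk f.1)| +
        ‖ξ‖ * (1 / p.2.2.1 ((W R m).nk f.1) + Real.exp (-p.1 f)) := by positivity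
    rcases hj with hj | hj
    · exact (H R m S hS p (adm_mono (le_max_left _ _) hp) j hj ξ hξ f d hd).trans
        (mul_le_mul_of_nonneg_right (le_max_left _ _) h0)
    · exact (H' R m S hS p (adm_mono (le_max_right _ _) hp) j hj ξ hξ f d hd).trans
        (mul_le_mul_of_nonneg_right (le_max_right _ _) h0)
  b4 := by
    obtain ⟨K, N, hN, H⟩ := h.b4
    obtain ⟨K', N', hN', H'⟩ := h'.b4
    refine ⟨max K K', max N N', hN.trans (le_max_left _ _), ?_⟩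
    intro R m S hS p hp j hj ξ hξ k
    have hy := adm_y_pos hN (adm_mono (le_max_left N N') hp) k
    have h0 : 0 ≤ |bt ξ k| + ‖ξ‖ / p.2.2.1 k := by positivity
    rcases hj with hj | hj
    · exact (H R m S hS p (adm_mono (le_max_left _ _) hp) j hj ξ hξ k).trans
        (mul_le_mul_of_nonneg_right (le_max_left _ _) h0)
    · exact (H' R m S hS p (adm_mono (le_max_right _ _) hp) j hj ξ hξ k).trans
        (mul_le_mul_of_nonneg_right (le_max_right _ _) h0)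
  b5 := by
    obtain ⟨K, N, hN, H⟩ := h.b5
    obtain ⟨K', N', hN', H'⟩ := h'.b5
    refine ⟨max K K', max N N', hN.trans (le_max_left _ _), ?_⟩
    intro R m S hS p hp j hj ξ hξ k
    have hy := adm_y_pos hN (adm_mono (le_max_left N N') hp) k
    have h0 : 0 ≤ ‖ξ‖ / p.2.2.1 k := by positivity
    rcases hj with hj | hj
    · exact (H R m S hS p (adm_mono (le_max_left _ _) hp) j hj ξ hξ k).trans
        (mul_le_mul_of_nonneg_right (le_max_left _ _) h0)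
    · exact (H' R m S hS p (adm_mono (le_max_right _ _) hp) j hj ξ hξ k).trans
        (mul_le_mul_of_nonneg_right (le_max_right _ _) h0)
  b6 := by
    obtain ⟨K, N, hN, H⟩ := h.b6
    obtain ⟨K', N', hN', H'⟩ := h'.b6
    refine ⟨max K K', max N N', hN.trans (le_max_left _ _), ?_⟩
    intro R m S hS p hp j hj ξ hξ hb
    have hy := adm_y_pos hN (adm_mono (le_max_left N N') hp)
    have h0 := ww_nonneg ξ hy
    have h1 : ∀ k, 0 ≤ ww ξ p.2.2.1 * (mn p.2.2.1 / p.2.2.1 k) := fun k =>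
      mul_nonneg h0 (div_nonneg (mn_pos hy).le (hy k).le)
    rcases hj with hj | hj
    · obtain ⟨e1, e2⟩ := H R m S hS p (adm_mono (le_max_left _ _) hp) j hj ξ hξ hb
      exact ⟨fun d hd => (e1 d hd).trans (mul_le_mul_of_nonneg_right (le_max_left _ _) h0),
        fun k => (e2 k).trans (mul_le_mul_of_nonneg_right (le_max_left _ _) (h1 k))⟩
    · obtain ⟨e1, e2⟩ := H' R m S hS p (adm_mono (le_max_right _ _) hp) j hj ξ hξ hb
      exact ⟨fun d hd => (e1 d hd).trans (mul_le_mul_of_nonneg_right (le_max_right _ _) h0),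
        fun k => (e2 k).trans (mul_le_mul_of_nonneg_right (le_max_right _ _) (h1 k))⟩
  limN R m S hS B p hp hy j hj k hk ξ hξ d hd := by
    rcases hj with hj | hj
    · exact h.limN R m S hS B p hp hy j hj k hk ξ hξ d hd
    · exact h'.limN R m S hS B p hp hy j hj k hk ξ hξ d hd
  limC R m S hS B p hp hy j hj b hb ξ hξ d hd := by
    rcases hj with hj | hj
    · exact h.limC R m S hS B p hp hy j hj b hb ξ hξ d hd
    · exact h'.limC R m S hS B p hp hy j hj b hb ξ hξ d hd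
  lim0 R m S hS B p hp hy j hj ξ hξ hb := by
    rcases hj with hj | hj
    · exact h.lim0 R m S hS B p hp hy j hj ξ hξ hb
    · exact h'.lim0 R m S hS B p hp hy j hj ξ hξ hb

/-- all marks -/
theorem AsyQ.asyL {Q : MarkP} {κ : Fin 3 → Fin 3 → ℝ} {lg : LegF} (h : AsyQ Q κ lg)
    (hQ : ∀ R S j, Q R S j) : AsyL κ lg where
  b1 := by
    obtain ⟨K, N, hN, H⟩ := h.b1
    exact ⟨K, N, hN, fun R m S hS p hp j ξ hξ => H R m S hS p hp j (hQ R S j) ξ hξ⟩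
  b2 := by
    obtain ⟨K, N, hN, H⟩ := h.b2
    exact ⟨K, N, hN, fun R m S hS p hp j ξ hξ => H R m S hS p hp j (hQ R S j) ξ hξ⟩
  b4 := by
    obtain ⟨K, N, hN, H⟩ := h.b4
    exact ⟨K, N, hN, fun R m S hS p hp j ξ hξ => H R m S hS p hp j (hQ R S j) ξ hξ⟩
  b5 := by
    obtain ⟨K, N, hN, H⟩ := h.b5
    exact ⟨K, N, hN, fun R m S hS p hp j ξ hξ => H R m S hS p hp j (hQ R S j) ξ hξ⟩
  b6 := by
    obtain ⟨K, N, hN, H⟩ := h.b6
    exact ⟨K, N, hN, fun R m S hS p hp j ξ hξ => H R m S hS p hp j (hQ R S j) ξ hξ⟩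
  limN R m S hS B p hp hy j := h.limN R m S hS B p hp hy j (hQ R S j)
  limC R m S hS B p hp hy j := h.limC R m S hS B p hp hy j (hQ R S j)
  lim0 R m S hS B p hp hy j := h.lim0 R m S hS B p hp hy j (hQ R S j)

/-- marks of the necks -/
def Neck : MarkP := fun R _ j => ∃ k, R.pl j = Sum.inl k

/-- core marks in the chart `x` -/
def Near0 : MarkP := fun R S j => S j = false ∧ ∃ b, R.pl j = Sum.inr b

/-- core marks in the chart `w = 1/x` -/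
def Far0 : MarkP := fun R S j => S j = true ∧ ∃ b, R.pl j = Sum.inr b

theorem asyL_of_three {κ : Fin 3 → Fin 3 → ℝ} {lg : LegF} (h1 : AsyQ Neck κ lg)
    (h2 : AsyQ Near0 κ lg) (h3 : AsyQ Far0 κ lg) : AsyL κ lg := by
  refine ((h1.or h2).or h3).asyL fun R S j => ?_
  rcases hj : R.pl j with k | b
  · exact Or.inl (Or.inl ⟨k, hj⟩)
  · rcases hS : S j with _ | _
    · exact Or.inl (Or.inr ⟨hS, b, hj⟩)
    · exact Or.inr ⟨hS, b, hj⟩

end Vale.Agent.P273.H803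

end
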