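import Vale.Agent.P273.H562.AsyDefs
import Vale.Agent.P273.H973.GaugeDef

/-!
# P273, crew ASY0: the three levels of the proof of `Asy κ gauge0`

* `AsyL κ lg`: the fields of helper562's `Asy` (all except `col`) for an arbitrary family `lg` of
  real 1-forms on the log charts; `Asy.of_asyL`.
* `lgP O`: the leg of ONE mark for helper973's `One` (after the cut-offs, before the recursion).
* `Vert O`: the fibrewise bound of `One` at theta configurations.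
* `asy_of_asyL`: what the recursion (T2) has to deliver is `AsyL` for `leg` and `col`.
-/

noncomputable section

namespace Vale.Agent.P273.H803

open Set Filter H681 H95 H732 H562 H973
open scoped Topology ContDiff

/-- families of real 1-forms: region, eliminated gaps, far marks, mark, class, point -/
abbrev LegF : Type := (R : H95.Region) → (m : ∀ k, Fin (R.n k + 1)) → (L → Bool) → L →
  (Fin 6 → ℝ) → (p : Co R m) → (Co R m →L[ℝ] ℝ)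

/-- the fields of `Asy` for a family of 1-forms -/
structure AsyL (κ : Fin 3 → Fin 3 → ℝ) (lg : LegF) : Prop where
  b1 : ∃ K N₀ : ℝ, 1 ≤ N₀ ∧ ∀ R m S, FarOk R S → ∀ p, Adm R m S N₀ p → ∀ j ξ, IsCl ξ →
    ∀ d : (W R m).Dir R.Cm, (∀ k, d ≠ .y k) → |lg R m S j ξ p ((W R m).vec d)| ≤ K * ‖ξ‖
  b2 : ∃ K N₀ : ℝ, 1 ≤ N₀ ∧ ∀ R m S, FarOk R S → ∀ p, Adm R m S N₀ p → ∀ j ξ, IsCl ξ →
    ∀ f : (W R m).Fr, ∀ d : (W R m).Dir R.Cm, (d = .u f ∨ d = .ph f) →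
      |lg R m S j ξ p ((W R m).vec d)| ≤ K * (|bt ξ ((W R m).nk f.1)| +
        ‖ξ‖ * (1 / p.2.2.1 ((W R m).nk f.1) + Real.exp (-p.1 f)))
  b4 : ∃ K N₀ : ℝ, 1 ≤ N₀ ∧ ∀ R m S, FarOk R S → ∀ p, Adm R m S N₀ p → ∀ j ξ, IsCl ξ →
    ∀ k, |lg R m S j ξ p ((W R m).vec (.al k))| ≤ K * (|bt ξ k| + ‖ξ‖ / p.2.2.1 k)
  b5 : ∃ K N₀ : ℝ, 1 ≤ N₀ ∧ ∀ R m S, FarOk R S → ∀ p, Adm R m S N₀ p → ∀ j ξ, IsCl ξ →
    ∀ k, |lg R m S j ξ p ((W R m).eul p k)| ≤ K * (‖ξ‖ / p.2.2.1 k)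
  b6 : ∃ K N₀ : ℝ, 1 ≤ N₀ ∧ ∀ R m S, FarOk R S → ∀ p, Adm R m S N₀ p → ∀ j ξ, IsCl ξ →
    (∀ k, bt ξ k = 0) →
    (∀ d : (W R m).Dir R.Cm, (∀ k, d ≠ .y k) →
      |lg R m S j ξ p ((W R m).vec d)| ≤ K * ww ξ p.2.2.1) ∧
    ∀ k, |lg R m S j ξ p ((W R m).eul p k)| ≤
      K * (ww ξ p.2.2.1 * (mn p.2.2.1 / p.2.2.1 k))
  limN : ∀ R m S, FarOk R S → ∀ (B : Set (W R m).Fr) (p : Co R m), Gen R m S B p →
    (∀ k, 0 < p.2.2.1 k) → ∀ (j : L) (k : Fin 3) (h : R.pl j = Sum.inl k) (ξ : Fin 6 → ℝ),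
    IsCl ξ → ∀ d : BDir R m, d.ok R m B →
    Tendsto (fun N : ℝ => d.sca R m N * lg R m S j ξ ((W R m).dpt B N p)
      (d.vec R m B ((W R m).dpt B N p))) atTop
      (𝓝 (legN κ R m ξ p.2.2.1 p.2.2.2.1 k (depl R m B p h) (wreg.LX R.Cm R.n m k (rkF R h)) d))
  limC : ∀ R m S, FarOk R S → ∀ (B : Set (W R m).Fr) (p : Co R m), Gen R m S B p →
    (∀ k, 0 < p.2.2.1 k) → ∀ (j : L) (b : Bool), R.pl j = Sum.inr b → ∀ ξ : Fin 6 → ℝ,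
    IsCl ξ → ∀ d : BDir R m, d.ok R m B →
    Tendsto (fun N : ℝ => d.sca R m N * lg R m S j ξ ((W R m).dpt B N p)
      (d.vec R m B ((W R m).dpt B N p))) atTop
      (𝓝 (legC κ R m ξ p.2.2.1 p.2.2.2.1 b d))
  lim0 : ∀ R m S, FarOk R S → ∀ (B : Set (W R m).Fr) (p : Co R m), Gen R m S B p →
    (∀ k, 0 < p.2.2.1 k) → ∀ (j : L) (ξ : Fin 6 → ℝ), IsCl ξ → (∀ k, bt ξ k = 0) →
    (∀ f ∈ B, Tendsto (fun N : ℝ => N * lg R m S j ξ ((W R m).dpt B N p)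
      ((W R m).vec (.ph f))) atTop (𝓝 0)) ∧
    ∀ l, Tendsto (fun N : ℝ => N * lg R m S j ξ ((W R m).dpt B N p)
      ((W R m).vec (.al l))) atTop (𝓝 0)

/-- the field `col` of `Asy` -/
def Col (Θ : Gauge) : Prop := ∃ δ N₀ : ℝ, 0 < δ ∧ ∀ R m S, FarOk R S → ∀ p, Adm R m S N₀ p →
    ∀ i j : L, i ≠ j → i.2 = j.2 →
    (((∀ k, ¬ (R.pl i = Sum.inl k ∧ R.pl j = Sum.inl k)) ∧ H975.Clo R S (emb R m p) i j < δ) ∨
      ∃ k, R.pl i = Sum.inl k ∧ R.pl j = Sum.inl k ∧ R.rk i < R.rk j ∧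
        H975.Cln R (emb R m p) i j k < δ) →
    ∀ ξ, IsCl ξ → leg R m Θ S i ξ p = leg R m Θ S j ξ p

theorem asy_of_asyL {κ : Fin 3 → Fin 3 → ℝ} {Θ : Gauge}
    (h : AsyL κ fun R m S j ξ p => leg R m Θ S j ξ p) (hc : Col Θ) : Asy κ Θ where
  b1 := h.b1
  b2 := h.b2
  b4 := h.b4
  b5 := h.b5
  b6 := h.b6
  limN := h.limN
  limC := h.limC
  lim0 := h.lim0
  col := hc

/-- the map of the log chart to (roots, coordinate of the mark `j`) -/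
def posj (R : H95.Region) (m : ∀ k, Fin (R.n k + 1)) (j : L) (p : Co R m) : E1 :=
  prj j (posE R m p)

/-- the leg of one mark, before the recursion -/
def lgP (O : One) : LegF := fun R m S j ξ p =>
  ((O.η ξ (S j) (posj R m j p) (shE R m S p j)).comp (prj j)).comp (fderiv ℝ (posE R m) p)

/-- base data of a theta configuration -/
def BaseOk (N₀ : ℝ) (y α : Fin 3 → ℝ) : Prop :=
  (∀ k, N₀ ≤ y k) ∧ ∀ k, -7 ≤ α k ∧ α k ≤ 1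

/-- **fibrewise bounds** at theta configurations: any class, near a centre, classes constant on the
pairs -/
structure Vert (O : One) : Prop where
  v1 : ∃ K N₀ : ℝ, 1 ≤ N₀ ∧ ∀ y α, BaseOk N₀ y α → ∀ ξ, IsCl ξ → ∀ x v ζ : ℂ,
    On1 false (rootsL y α, x) v → |O.η ξ false (rootsL y α, x) v (0, ζ)| ≤
      K * ‖ξ‖ * (‖ζ‖ / H578.Hs (rootsL y α) x)
  v2 : ∃ K N₀ : ℝ, 1 ≤ N₀ ∧ ∀ y α, BaseOk N₀ y α → ∀ ξ, IsCl ξ → ∀ x v ζ : ℂ,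
    On1 false (rootsL y α, x) v → ∀ k, ‖x - ctr k‖ ≤ 1 / 4 →
      |O.η ξ false (rootsL y α, x) v (0, ζ)| ≤
        K * (|bt ξ k| + ‖ξ‖ * (1 / y k + ‖x - ctr k‖)) * (‖ζ‖ / H578.Hs (rootsL y α) x)
  v6 : ∃ K N₀ : ℝ, 1 ≤ N₀ ∧ ∀ y α, BaseOk N₀ y α → ∀ ξ, IsCl ξ → (∀ k, bt ξ k = 0) →
    ∀ x v ζ : ℂ, On1 false (rootsL y α, x) v → |O.η ξ false (rootsL y α, x) v (0, ζ)| ≤
      K * ww ξ y * (‖ζ‖ / H578.Hs (rootsL y α) x)

end Vale.Agent.P273.H803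

end
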