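import Vale.Agent.P273.H803.Asy0Pre
import Vale.Agent.P273.H936.NeckFin
import Vale.Agent.P273.H951.CoreNear
import Vale.Agent.P273.H681.FarCore
import Vale.Agent.P273.H442.InB5

/-!
# P273, row ASY0: the asymptotic properties of the harmonic gauge at the theta point
-/

noncomputable section

namespace Vale.Agent.P273.H803

open H562 H973

/-- the family of one mark of the harmonic gauge -/
theorem asyP : AsyL kapT (lgP H580.theOne) :=
  asyP_pre H936.neckForm H951.coreForm_near H681.FarCore.coreForm_far

/-- **the asymptotic properties of the harmonic gauge at the theta point** -/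
theorem asy0 : Asy kapT gauge0 :=
  asy0_pre H936.neckForm H951.coreForm_near H681.FarCore.coreForm_far H442.inB5

end Vale.Agent.P273.H803

end
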