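import Vale.Agent.P273.H803.AsyQ
import Vale.Agent.P273.H422.GenAdm
import Vale.Agent.P273.H732.EulB

/-!
# P273, crew ASY0: the effect of the cut-off at infinity on the legs of a core mark

* `EqForm Q lgU lg`: the two families agree at the admissible points for the marks in `Q`;
  `EqForm.asy`.
* `FarForm lgU lgC lg`: far core marks, `lg = (1 - χ) lgU + χ lgC - E τ`; `FarForm.asy`.
-/

noncomputable section

namespace Vale.Agent.P273.H803

open Set Filter H681 H95 H732 H562 H973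
open scoped Topology ContDiff

/-- the two families agree for the marks in `Q` -/
def EqForm (Q : MarkP) (lgU lg : LegF) : Prop := ∃ N₀ : ℝ, 1 ≤ N₀ ∧
  ∀ R m S, FarOk R S → ∀ p, Adm R m S N₀ p → ∀ j, Q R S j → ∀ ξ, IsCl ξ →
    lg R m S j ξ p = lgU R m S j ξ p

/-- the cut-off at infinity, far core marks -/
def FarForm (lgU lgC lg : LegF) : Prop := ∃ C N₀ : ℝ, 0 ≤ C ∧ 1 ≤ N₀ ∧
  ∀ R m S, FarOk R S → ∀ p, Adm R m S N₀ p → ∀ j, Far0 R S j → ∀ ξ, IsCl ξ →
    ∃ (χ E : ℝ) (τ : Co R m →L[ℝ] ℝ), 0 ≤ χ ∧ χ ≤ 1 ∧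
      lg R m S j ξ p = (1 - χ) • lgU R m S j ξ p + χ • lgC R m S j ξ p - E • τ ∧
      |E| ≤ C * ‖ξ‖ ∧
      ((∀ l, bt ξ l = 0) → |E| ≤ C * ww ξ p.2.2.1) ∧
      (∀ d : (W R m).Dir R.Cm, (∀ l, d ≠ .y l) → |τ ((W R m).vec d)| ≤ C) ∧
      (∀ f : (W R m).Fr, τ ((W R m).vec (.u f)) = 0 ∧ τ ((W R m).vec (.ph f)) = 0) ∧
      (∀ l, |τ ((W R m).vec (.al l))| ≤ C / p.2.2.1 l ^ 2) ∧
      ∀ l, |τ ((W R m).vec (.y l))| ≤ C / p.2.2.1 l ^ 2

variable {lgU lgC lg : LegF} {κ : Fin 3 → Fin 3 → ℝ} {Q : MarkP}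

theorem EqForm.asy (hF : EqForm Q lgU lg) (hU : AsyQ Q κ lgU) : AsyQ Q κ lg where
  b1 := by
    obtain ⟨K, N, hN, H⟩ := hU.b1
    obtain ⟨N', hN', H'⟩ := hF
    refine ⟨K, max N N', hN.trans (le_max_left _ _), ?_⟩
    intro R m S hS p hp j hj ξ hξ d hd
    rw [H' R m S hS p (adm_mono (le_max_right _ _) hp) j hj ξ hξ]
    exact H R m S hS p (adm_mono (le_max_left _ _) hp) j hj ξ hξ d hd
  b2 := by
    obtain ⟨K, N, hN, H⟩ := hU.b2
    obtain ⟨N', hN', H'⟩ := hF
    refine ⟨K, max N N', hN.trans (le_max_left _ _), ?_⟩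
    intro R m S hS p hp j hj ξ hξ
    rw [H' R m S hS p (adm_mono (le_max_right _ _) hp) j hj ξ hξ]
    exact H R m S hS p (adm_mono (le_max_left _ _) hp) j hj ξ hξ
  b4 := by
    obtain ⟨K, N, hN, H⟩ := hU.b4
    obtain ⟨N', hN', H'⟩ := hF
    refine ⟨K, max N N', hN.trans (le_max_left _ _), ?_⟩
    intro R m S hS p hp j hj ξ hξ
    rw [H' R m S hS p (adm_mono (le_max_right _ _) hp) j hj ξ hξ]
    exact H R m S hS p (adm_mono (le_max_left _ _) hp) j hj ξ hξ
  b5 := by
    obtain ⟨K, N, hN, H⟩ := hU.b5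
    obtain ⟨N', hN', H'⟩ := hF
    refine ⟨K, max N N', hN.trans (le_max_left _ _), ?_⟩
    intro R m S hS p hp j hj ξ hξ
    rw [H' R m S hS p (adm_mono (le_max_right _ _) hp) j hj ξ hξ]
    exact H R m S hS p (adm_mono (le_max_left _ _) hp) j hj ξ hξ
  b6 := by
    obtain ⟨K, N, hN, H⟩ := hU.b6
    obtain ⟨N', hN', H'⟩ := hF
    refine ⟨K, max N N', hN.trans (le_max_left _ _), ?_⟩
    intro R m S hS p hp j hj ξ hξ
    rw [H' R m S hS p (adm_mono (le_max_right _ _) hp) j hj ξ hξ]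
    exact H R m S hS p (adm_mono (le_max_left _ _) hp) j hj ξ hξ
  limN R m S hS B p hp hy j hj k hk ξ hξ d hd := by
    obtain ⟨N', hN', H'⟩ := hF
    refine (hU.limN R m S hS B p hp hy j hj k hk ξ hξ d hd).congr' ?_
    filter_upwards [H422.gen_adm R m S hS B p hp hy N'] with N hN
    rw [H' R m S hS _ hN j hj ξ hξ]
  limC R m S hS B p hp hy j hj b hb ξ hξ d hd := by
    obtain ⟨N', hN', H'⟩ := hF
    refine (hU.limC R m S hS B p hp hy j hj b hb ξ hξ d hd).congr' ?_
    filter_upwards [H422.gen_adm R m S hS B p hp hy N'] with N hN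
    rw [H' R m S hS _ hN j hj ξ hξ]
  lim0 R m S hS B p hp hy j hj ξ hξ hb := by
    obtain ⟨N', hN', H'⟩ := hF
    obtain ⟨h1, h2⟩ := hU.lim0 R m S hS B p hp hy j hj ξ hξ hb
    refine ⟨fun f hf => (h1 f hf).congr' ?_, fun l => (h2 l).congr' ?_⟩
    · filter_upwards [H422.gen_adm R m S hS B p hp hy N'] with N hN
      rw [H' R m S hS _ hN j hj ξ hξ]
    · filter_upwards [H422.gen_adm R m S hS B p hp hy N'] with N hN
      rw [H' R m S hS _ hN j hj ξ hξ]

/-- a form that vanishes on the gaps has the same value on the Euler vector and on `∂_y` -/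
theorem eul_of_gap {R : H95.Region} {m : ∀ k, Fin (R.n k + 1)} {τ : Co R m →L[ℝ] ℝ}
    (h : ∀ f : (W R m).Fr, τ ((W R m).vec (.u f)) = 0) (p : Co R m) (k : Fin 3) :
    τ ((W R m).eul p k) = τ ((W R m).vec (.y k)) := by
  rw [Reg.eul_eq, map_add, map_sum]
  simp only [map_smul, h, smul_zero, Finset.sum_const_zero, add_zero]

theorem eulB_of_gap {R : H95.Region} {m : ∀ k, Fin (R.n k + 1)} {τ : Co R m →L[ℝ] ℝ}
    (h : ∀ f : (W R m).Fr, τ ((W R m).vec (.u f)) = 0) (B : Set (W R m).Fr) (p : Co R m)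
    (k : Fin 3) : τ (eulB R m B p k) = τ ((W R m).vec (.y k)) := by
  have h1 : eulB R m B p k = (W R m).eulB B p k := rfl
  rw [h1, Reg.eulB_eq, map_add, map_sum]
  simp only [map_smul, h, smul_zero, Finset.sum_const_zero, add_zero]

theorem abs_convex_le {χ a b X : ℝ} (h0 : 0 ≤ χ) (h1 : χ ≤ 1) (ha : |a| ≤ X) (hb : |b| ≤ X) :
    |(1 - χ) * a + χ * b| ≤ X := by
  have h2 : |(1 - χ) * a| ≤ (1 - χ) * X := by
    rw [abs_mul, abs_of_nonneg (by linarith : (0 : ℝ) ≤ 1 - χ)]
    exact mul_le_mul_of_nonneg_left ha (by linarith)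
  have h3 : |χ * b| ≤ χ * X := by
    rw [abs_mul, abs_of_nonneg h0]
    exact mul_le_mul_of_nonneg_left hb h0
  calc _ ≤ |(1 - χ) * a| + |χ * b| := abs_add_le _ _
    _ ≤ (1 - χ) * X + χ * X := add_le_add h2 h3
    _ = X := by ring

/-- limits pass to `(1 - χ) a + χ b - e` with `e → 0` -/
theorem tendsto_convex {a b c : ℝ → ℝ} {L : ℝ} {e : ℝ → ℝ} (ha : Tendsto a atTop (𝓝 L))
    (hb : Tendsto b atTop (𝓝 L)) (he : Tendsto e atTop (𝓝 0))
    (h : ∀ᶠ N in atTop, ∃ χ t : ℝ, 0 ≤ χ ∧ χ ≤ 1 ∧ c N = (1 - χ) * a N + χ * b N - t ∧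
      |t| ≤ e N) : Tendsto c atTop (𝓝 L) := by
  rw [tendsto_iff_norm_sub_tendsto_zero] at ha hb ⊢
  refine squeeze_zero' (Eventually.of_forall fun _ => norm_nonneg _) ?_
    (g := fun N => ‖a N - L‖ + ‖b N - L‖ + e N) (by simpa using (ha.add hb).add he)
  filter_upwards [h] with N hN
  obtain ⟨χ, t, h0, h1, h2, h3⟩ := hN
  rw [h2]
  have h4 : (1 - χ) * a N + χ * b N - t - L = (1 - χ) * (a N - L) + χ * (b N - L) - t := by ring
  rw [h4]
  simp only [Real.norm_eq_abs]
  have h5 := abs_convex_le h0 h1 (a := a N - L) (b := b N - L)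
    (X := |a N - L| + |b N - L|) (le_add_of_nonneg_right (abs_nonneg _))
    (le_add_of_nonneg_left (abs_nonneg _))
  have h6 := abs_sub ((1 - χ) * (a N - L) + χ * (b N - L)) t
  linarith

/-- **the cut-off at infinity keeps the fields of `Asy`** -/
theorem FarForm.asy (hF : FarForm lgU lgC lg) (hU : AsyQ Far0 κ lgU) (hV : AsyQ Far0 κ lgC) :
    AsyQ Far0 κ lg where
  b1 := by
    obtain ⟨K, N, hN, H⟩ := hU.b1
    obtain ⟨K1, N1, hN1, H1⟩ := hV.b1
    obtain ⟨C, N', hC, hN', H'⟩ := hF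
    refine ⟨max K K1 + C * C, max (max N N1) N', (hN.trans (le_max_left _ _)).trans
      (le_max_left _ _), ?_⟩
    intro R m S hS p hp j hj ξ hξ d hd
    have hp0 := adm_mono (le_max_left (max N N1) N') hp
    have hp1 := adm_mono (le_max_left N N1) hp0
    have hp3 := adm_mono (le_max_right N N1) hp0
    have hp2 := adm_mono (le_max_right (max N N1) N') hp
    obtain ⟨χ, E, τ, c0, c1, e1, e2, -, e4, -⟩ := H' R m S hS p hp2 j hj ξ hξ
    have h1 := (H R m S hS p hp1 j hj ξ hξ d hd).trans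
      (mul_le_mul_of_nonneg_right (le_max_left K K1) (norm_nonneg ξ))
    have h2 := (H1 R m S hS p hp3 j hj ξ hξ d hd).trans
      (mul_le_mul_of_nonneg_right (le_max_right K K1) (norm_nonneg ξ))
    have h3 := e4 d hd
    rw [e1]
    simp only [ContinuousLinearMap.sub_apply, ContinuousLinearMap.add_apply,
      ContinuousLinearMap.smul_apply, smul_eq_mul]
    have h5 : |E * τ ((W R m).vec d)| ≤ C * ‖ξ‖ * C := by
      rw [abs_mul]
      exact mul_le_mul e2 h3 (abs_nonneg _) (by positivity)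
    refine (abs_sub _ _).trans ?_
    calc _ ≤ max K K1 * ‖ξ‖ + C * ‖ξ‖ * C := add_le_add (abs_convex_le c0 c1 h1 h2) h5
      _ = _ := by ring
  b2 := by
    obtain ⟨K, N, hN, H⟩ := hU.b2
    obtain ⟨K1, N1, hN1, H1⟩ := hV.b2
    obtain ⟨C, N', hC, hN', H'⟩ := hF
    refine ⟨max K K1, max (max N N1) N', (hN.trans (le_max_left _ _)).trans
      (le_max_left _ _), ?_⟩
    intro R m S hS p hp j hj ξ hξ f d hd
    have hp0 := adm_mono (le_max_left (max N N1) N') hp
    have hp1 := adm_mono (le_max_left N N1) hp0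
    have hp3 := adm_mono (le_max_right N N1) hp0
    have hp2 := adm_mono (le_max_right (max N N1) N') hp
    have hyf := adm_y_pos hN hp1 ((W R m).nk f.1)
    obtain ⟨χ, E, τ, c0, c1, e1, -, -, -, e5, -⟩ := H' R m S hS p hp2 j hj ξ hξ
    have hX0 : 0 ≤ |bt ξ ((W R m).nk f.1)| +
        ‖ξ‖ * (1 / p.2.2.1 ((W R m).nk f.1) + Real.exp (-p.1 f)) := by positivity
    have h1 := (H R m S hS p hp1 j hj ξ hξ f d hd).trans
      (mul_le_mul_of_nonneg_right (le_max_left K K1) hX0)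
    have h2 := (H1 R m S hS p hp3 j hj ξ hξ f d hd).trans
      (mul_le_mul_of_nonneg_right (le_max_right K K1) hX0)
    have h7 : τ ((W R m).vec d) = 0 := by
      rcases hd with rfl | rfl
      · exact (e5 f).1
      · exact (e5 f).2
    rw [e1]
    simp only [ContinuousLinearMap.sub_apply, ContinuousLinearMap.add_apply,
      ContinuousLinearMap.smul_apply, smul_eq_mul, h7, mul_zero, sub_zero]
    exact abs_convex_le c0 c1 h1 h2
  b4 := by
    obtain ⟨K, N, hN, H⟩ := hU.b4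
    obtain ⟨K1, N1, hN1, H1⟩ := hV.b4
    obtain ⟨C, N', hC, hN', H'⟩ := hF
    refine ⟨max K K1 + C * C, max (max N N1) N', (hN.trans (le_max_left _ _)).trans
      (le_max_left _ _), ?_⟩
    intro R m S hS p hp j hj ξ hξ l
    have hp0 := adm_mono (le_max_left (max N N1) N') hp
    have hp1 := adm_mono (le_max_left N N1) hp0
    have hp3 := adm_mono (le_max_right N N1) hp0
    have hp2 := adm_mono (le_max_right (max N N1) N') hp
    have hyl := adm_y_pos hN hp1 l
    have hy1 : 1 ≤ p.2.2.1 l := hN.trans (hp1.2.1 l)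
    obtain ⟨χ, E, τ, c0, c1, e1, e2, -, -, -, e6, -⟩ := H' R m S hS p hp2 j hj ξ hξ
    have hX0 : 0 ≤ |bt ξ l| + ‖ξ‖ / p.2.2.1 l := by positivity
    have h1 := (H R m S hS p hp1 j hj ξ hξ l).trans
      (mul_le_mul_of_nonneg_right (le_max_left K K1) hX0)
    have h2 := (H1 R m S hS p hp3 j hj ξ hξ l).trans
      (mul_le_mul_of_nonneg_right (le_max_right K K1) hX0)
    have h3 := e6 l
    rw [e1]
    simp only [ContinuousLinearMap.sub_apply, ContinuousLinearMap.add_apply,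
      ContinuousLinearMap.smul_apply, smul_eq_mul]
    have h5 : |E * τ ((W R m).vec (.al l))| ≤ C * C * (|bt ξ l| + ‖ξ‖ / p.2.2.1 l) := by
      rw [abs_mul]
      have h6 : C / p.2.2.1 l ^ 2 ≤ C / p.2.2.1 l := by
        refine div_le_div_of_nonneg_left hC hyl ?_
        nlinarith
      calc |E| * |τ ((W R m).vec (.al l))| ≤ C * ‖ξ‖ * (C / p.2.2.1 l) :=
            mul_le_mul e2 (h3.trans h6) (abs_nonneg _) (by positivity)
        _ = C * C * (‖ξ‖ / p.2.2.1 l) := by ring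
        _ ≤ C * C * (|bt ξ l| + ‖ξ‖ / p.2.2.1 l) :=
            mul_le_mul_of_nonneg_left (le_add_of_nonneg_left (abs_nonneg _)) (by positivity)
    refine (abs_sub _ _).trans ?_
    calc _ ≤ max K K1 * (|bt ξ l| + ‖ξ‖ / p.2.2.1 l) + C * C * (|bt ξ l| + ‖ξ‖ / p.2.2.1 l) :=
          add_le_add (abs_convex_le c0 c1 h1 h2) h5
      _ = _ := by ring
  b5 := by
    obtain ⟨K, N, hN, H⟩ := hU.b5
    obtain ⟨K1, N1, hN1, H1⟩ := hV.b5
    obtain ⟨C, N', hC, hN', H'⟩ := hF
    refine ⟨max K K1 + C * C, max (max N N1) N', (hN.trans (le_max_left _ _)).trans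
      (le_max_left _ _), ?_⟩
    intro R m S hS p hp j hj ξ hξ l
    have hp0 := adm_mono (le_max_left (max N N1) N') hp
    have hp1 := adm_mono (le_max_left N N1) hp0
    have hp3 := adm_mono (le_max_right N N1) hp0
    have hp2 := adm_mono (le_max_right (max N N1) N') hp
    have hyl := adm_y_pos hN hp1 l
    have hy1 : 1 ≤ p.2.2.1 l := hN.trans (hp1.2.1 l)
    obtain ⟨χ, E, τ, c0, c1, e1, e2, -, -, e5, -, e7⟩ := H' R m S hS p hp2 j hj ξ hξ
    have hX0 : 0 ≤ ‖ξ‖ / p.2.2.1 l := by positivity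
    have h1 := (H R m S hS p hp1 j hj ξ hξ l).trans
      (mul_le_mul_of_nonneg_right (le_max_left K K1) hX0)
    have h2 := (H1 R m S hS p hp3 j hj ξ hξ l).trans
      (mul_le_mul_of_nonneg_right (le_max_right K K1) hX0)
    have h3 := e7 l
    rw [e1]
    simp only [ContinuousLinearMap.sub_apply, ContinuousLinearMap.add_apply,
      ContinuousLinearMap.smul_apply, smul_eq_mul]
    rw [eul_of_gap (τ := τ) (fun f => (e5 f).1)]
    have h5 : |E * τ ((W R m).vec (.y l))| ≤ C * C * (‖ξ‖ / p.2.2.1 l) := by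
      rw [abs_mul]
      have h6 : C / p.2.2.1 l ^ 2 ≤ C / p.2.2.1 l := by
        refine div_le_div_of_nonneg_left hC hyl ?_
        nlinarith
      calc |E| * |τ ((W R m).vec (.y l))| ≤ C * ‖ξ‖ * (C / p.2.2.1 l) :=
            mul_le_mul e2 (h3.trans h6) (abs_nonneg _) (by positivity)
        _ = C * C * (‖ξ‖ / p.2.2.1 l) := by ring
    refine (abs_sub _ _).trans ?_
    calc _ ≤ max K K1 * (‖ξ‖ / p.2.2.1 l) + C * C * (‖ξ‖ / p.2.2.1 l) :=
          add_le_add (abs_convex_le c0 c1 h1 h2) h5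
      _ = _ := by ring
  b6 := by
    obtain ⟨K, N, hN, H⟩ := hU.b6
    obtain ⟨K1, N1, hN1, H1⟩ := hV.b6
    obtain ⟨C, N', hC, hN', H'⟩ := hF
    refine ⟨max K K1 + C * C, max (max N N1) N', (hN.trans (le_max_left _ _)).trans
      (le_max_left _ _), ?_⟩
    intro R m S hS p hp j hj ξ hξ hb
    have hp0 := adm_mono (le_max_left (max N N1) N') hp
    have hp1 := adm_mono (le_max_left N N1) hp0
    have hp3 := adm_mono (le_max_right N N1) hp0
    have hp2 := adm_mono (le_max_right (max N N1) N') hp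
    have hy := adm_y_pos hN hp1
    have hy1 : ∀ l, 1 ≤ p.2.2.1 l := fun l => hN.trans (hp1.2.1 l)
    have hw := ww_nonneg ξ hy
    have hm1 := one_le_mn hy1
    obtain ⟨χ, E, τ, c0, c1, e1, -, e3, e4, e5, -, e7⟩ := H' R m S hS p hp2 j hj ξ hξ
    have h3 := e3 hb
    obtain ⟨f1, f2⟩ := H R m S hS p hp1 j hj ξ hξ hb
    obtain ⟨g1, g2⟩ := H1 R m S hS p hp3 j hj ξ hξ hb
    constructor
    · intro d hd
      have h1 := (f1 d hd).trans (mul_le_mul_of_nonneg_right (le_max_left K K1) hw)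
      have h2 := (g1 d hd).trans (mul_le_mul_of_nonneg_right (le_max_right K K1) hw)
      have h4 := e4 d hd
      rw [e1]
      simp only [ContinuousLinearMap.sub_apply, ContinuousLinearMap.add_apply,
        ContinuousLinearMap.smul_apply, smul_eq_mul]
      have h5 : |E * τ ((W R m).vec d)| ≤ C * ww ξ p.2.2.1 * C := by
        rw [abs_mul]
        exact mul_le_mul h3 h4 (abs_nonneg _) (by positivity)
      refine (abs_sub _ _).trans ?_
      calc _ ≤ max K K1 * ww ξ p.2.2.1 + C * ww ξ p.2.2.1 * C :=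
            add_le_add (abs_convex_le c0 c1 h1 h2) h5
        _ = _ := by ring
    · intro l
      have hyl := hy l
      have hX0 : 0 ≤ ww ξ p.2.2.1 * (mn p.2.2.1 / p.2.2.1 l) := by positivity
      have h1 := (f2 l).trans (mul_le_mul_of_nonneg_right (le_max_left K K1) hX0)
      have h2 := (g2 l).trans (mul_le_mul_of_nonneg_right (le_max_right K K1) hX0)
      have h4 := e7 l
      rw [e1]
      simp only [ContinuousLinearMap.sub_apply, ContinuousLinearMap.add_apply,
        ContinuousLinearMap.smul_apply, smul_eq_mul]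
      rw [eul_of_gap (τ := τ) (fun f => (e5 f).1)]
      have h5 : |E * τ ((W R m).vec (.y l))| ≤
          C * C * (ww ξ p.2.2.1 * (mn p.2.2.1 / p.2.2.1 l)) := by
        rw [abs_mul]
        have h6 : C / p.2.2.1 l ^ 2 ≤ C * (mn p.2.2.1 / p.2.2.1 l) := by
          rw [div_eq_mul_one_div]
          refine mul_le_mul_of_nonneg_left ?_ hC
          rw [div_le_div_iff₀ (by positivity) hyl]
          nlinarith [hy1 l]
        calc |E| * |τ ((W R m).vec (.y l))| ≤ C * ww ξ p.2.2.1 * (C * (mn p.2.2.1 / p.2.2.1 l)) :=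
              mul_le_mul h3 (h4.trans h6) (abs_nonneg _) (by positivity)
          _ = _ := by ring
      refine (abs_sub _ _).trans ?_
      calc _ ≤ max K K1 * (ww ξ p.2.2.1 * (mn p.2.2.1 / p.2.2.1 l)) +
            C * C * (ww ξ p.2.2.1 * (mn p.2.2.1 / p.2.2.1 l)) :=
            add_le_add (abs_convex_le c0 c1 h1 h2) h5
        _ = _ := by ring
  limN R m S hS B p hp hy j hj k hk ξ hξ d hd := by
    obtain ⟨-, b, hb⟩ := hj
    rw [hk] at hb
    cases hb
  limC R m S hS B p hp hy j hj b hb ξ hξ d hd := by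
    obtain ⟨C, N', hC, hN', H'⟩ := hF
    have hlim : ∀ l, Tendsto (fun N : ℝ => N * (C * ‖ξ‖ * (C / (N * p.2.2.1 l) ^ 2))) atTop
        (𝓝 0) := by
      intro l
      have h1 : Tendsto (fun N : ℝ => C * ‖ξ‖ * C / p.2.2.1 l ^ 2 * N⁻¹) atTop (𝓝 0) := by
        simpa using tendsto_inv_atTop_zero.const_mul (C * ‖ξ‖ * C / p.2.2.1 l ^ 2)
      refine h1.congr' ?_
      filter_upwards [eventually_gt_atTop 0] with N hN
      have := (hy l).ne'
      field_simp
    have hsum : Tendsto (fun N : ℝ => ∑ l, N * (C * ‖ξ‖ * (C / (N * p.2.2.1 l) ^ 2))) atTop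
        (𝓝 0) := by
      simpa using tendsto_finset_sum Finset.univ fun l _ => hlim l
    refine tendsto_convex (hU.limC R m S hS B p hp hy j hj b hb ξ hξ d hd)
      (hV.limC R m S hS B p hp hy j hj b hb ξ hξ d hd) hsum ?_
    filter_upwards [H422.gen_adm R m S hS B p hp hy N', eventually_ge_atTop 1] with N hN hN1
    obtain ⟨χ, E, τ, c0, c1, e1, e2, -, -, e5, e6, e7⟩ := H' R m S hS _ hN j hj ξ hξ
    refine ⟨χ, d.sca R m N * (E * τ (d.vec R m B ((W R m).dpt B N p))), c0, c1, ?_, ?_⟩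
    · rw [e1]
      simp only [ContinuousLinearMap.sub_apply, ContinuousLinearMap.add_apply,
        ContinuousLinearMap.smul_apply, smul_eq_mul]
      ring
    · have hnn : ∀ l, 0 ≤ N * (C * ‖ξ‖ * (C / (N * p.2.2.1 l) ^ 2)) := fun l => by positivity
      have hle : ∀ l, N * (C * ‖ξ‖ * (C / (N * p.2.2.1 l) ^ 2)) ≤
          ∑ l, N * (C * ‖ξ‖ * (C / (N * p.2.2.1 l) ^ 2)) := fun l =>
        Finset.single_le_sum (fun i _ => hnn i) (Finset.mem_univ l)
      cases d with
      | u f =>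
        simp only [BDir.vec, (e5 f).1, mul_zero, abs_zero]
        exact Finset.sum_nonneg fun i _ => hnn i
      | ph f =>
        simp only [BDir.vec, (e5 f).2, mul_zero, abs_zero]
        exact Finset.sum_nonneg fun i _ => hnn i
      | al l =>
        refine le_trans ?_ (hle l)
        simp only [BDir.vec, BDir.sca, one_mul]
        rw [abs_mul]
        have h6 := e6 l
        have hyl : ((W R m).dpt B N p).2.2.1 l = N * p.2.2.1 l := rfl
        rw [hyl] at h6
        calc |E| * |τ ((W R m).vec (.al l))| ≤ C * ‖ξ‖ * (C / (N * p.2.2.1 l) ^ 2) :=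
              mul_le_mul e2 h6 (abs_nonneg _) (by positivity)
          _ = 1 * (C * ‖ξ‖ * (C / (N * p.2.2.1 l) ^ 2)) := (one_mul _).symm
          _ ≤ N * (C * ‖ξ‖ * (C / (N * p.2.2.1 l) ^ 2)) :=
              mul_le_mul_of_nonneg_right hN1 (by positivity)
      | eul l =>
        refine le_trans ?_ (hle l)
        simp only [BDir.vec, BDir.sca]
        rw [eulB_of_gap (τ := τ) (fun f => (e5 f).1), abs_mul, abs_mul,
          abs_of_nonneg (by linarith : (0 : ℝ) ≤ N)]
        have h6 := e7 l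
        have hyl : ((W R m).dpt B N p).2.2.1 l = N * p.2.2.1 l := rfl
        rw [hyl] at h6
        exact mul_le_mul_of_nonneg_left (mul_le_mul e2 h6 (abs_nonneg _) (by positivity))
          (by linarith)
  lim0 R m S hS B p hp hy j hj ξ hξ hb := by
    obtain ⟨C, N', hC, hN', H'⟩ := hF
    obtain ⟨h1, h2⟩ := hU.lim0 R m S hS B p hp hy j hj ξ hξ hb
    obtain ⟨h3, h4⟩ := hV.lim0 R m S hS B p hp hy j hj ξ hξ hb
    refine ⟨fun f hf => ?_, fun l => ?_⟩
    · refine tendsto_convex (h1 f hf) (h3 f hf) (tendsto_const_nhds (x := (0 : ℝ))) ?_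
      filter_upwards [H422.gen_adm R m S hS B p hp hy N'] with N hN
      obtain ⟨χ, E, τ, c0, c1, e1, e2, -, -, e5, e6, e7⟩ := H' R m S hS _ hN j hj ξ hξ
      refine ⟨χ, 0, c0, c1, ?_, by simp⟩
      rw [e1]
      simp only [ContinuousLinearMap.sub_apply, ContinuousLinearMap.add_apply,
        ContinuousLinearMap.smul_apply, smul_eq_mul, (e5 f).2]
      ring
    · have hlim : Tendsto (fun N : ℝ => N * (C * ‖ξ‖ * (C / (N * p.2.2.1 l) ^ 2))) atTop
          (𝓝 0) := by
        have h1 : Tendsto (fun N : ℝ => C * ‖ξ‖ * C / p.2.2.1 l ^ 2 * N⁻¹) atTop (𝓝 0) := by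
          simpa using tendsto_inv_atTop_zero.const_mul (C * ‖ξ‖ * C / p.2.2.1 l ^ 2)
        refine h1.congr' ?_
        filter_upwards [eventually_gt_atTop 0] with N hN
        have := (hy l).ne'
        field_simp
      refine tendsto_convex (h2 l) (h4 l) hlim ?_
      filter_upwards [H422.gen_adm R m S hS B p hp hy N', eventually_ge_atTop 1] with N hN hN1
      obtain ⟨χ, E, τ, c0, c1, e1, e2, -, -, e5, e6, e7⟩ := H' R m S hS _ hN j hj ξ hξ
      refine ⟨χ, N * (E * τ ((W R m).vec (.al l))), c0, c1, ?_, ?_⟩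
      · rw [e1]
        simp only [ContinuousLinearMap.sub_apply, ContinuousLinearMap.add_apply,
          ContinuousLinearMap.smul_apply, smul_eq_mul]
        ring
      · rw [abs_mul, abs_mul, abs_of_nonneg (by linarith : (0 : ℝ) ≤ N)]
        have h6 := e6 l
        have hyl : ((W R m).dpt B N p).2.2.1 l = N * p.2.2.1 l := rfl
        rw [hyl] at h6
        exact mul_le_mul_of_nonneg_left (mul_le_mul e2 h6 (abs_nonneg _) (by positivity))
          (by linarith)

end Vale.Agent.P273.H803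

end
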