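import Vale.Agent.P273.H803.NeckForm
import Vale.Agent.P273.H803.FarForm
import Vale.Agent.P273.H778.T2Defs
import Vale.Agent.P273.H973.Gauge0
import Vale.Agent.P273.H214.Disc

/-!
# P273, crew ASY0: the assembly of `Asy κ gauge0` from the three classes of marks, the fibrewise
bounds, the recursion and the collisions
-/

noncomputable section

namespace Vale.Agent.P273.H803

open Set Filter H681 H95 H732 H562 H973

/-- the family of one mark of the harmonic gauge, from the necks and the cores -/
theorem asyL_P {κ : Fin 3 → Fin 3 → ℝ} {lgF lgU : LegF} (h1 : NeckForm lgF (lgP H580.theOne))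
    (h2 : EqForm Neck lgU lgF) (h3 : AsyQ Neck κ lgU) (h4 : AsyQ Near0 κ (lgP H580.theOne))
    (h5 : AsyQ Far0 κ (lgP H580.theOne)) : AsyL κ (lgP H580.theOne) :=
  asyL_of_three (h1.asy (h2.asy h3)) h4 h5

/-- **the assembly** -/
theorem asy0_of {κ : Fin 3 → Fin 3 → ℝ} (hP : AsyL κ (lgP H580.theOne)) (hV : Vert H580.theOne)
    (hT : ∀ O : One, AsyL κ (lgP O) → Vert O → H778.Disc0 O →
      AsyL κ fun R m S j ξ p => leg R m (gaugeOf O) S j ξ p)
    (hC : Col gauge0) : Asy κ gauge0 :=
  asy_of_asyL (hT H580.theOne hP hV H214.disc0) hC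

end Vale.Agent.P273.H803

end
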