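import Vale.Agent.P273.H803.NeckForm
import Vale.Agent.P273.H863.NeckQ
import Vale.Agent.P273.H132.LimNeck
import Vale.Agent.P273.H680.CoreB
import Vale.Agent.P273.H951.CoreForm
import Vale.Agent.P273.H517.U0
import Vale.Agent.P273.H778.T2fin
import Vale.Agent.P273.H768.T2fin
import Vale.Agent.P273.H655.A4
import Vale.Agent.P273.H973.Gauge0
import Vale.Agent.P273.H214.Disc
import Vale.Agent.P273.H97.Vert
import Vale.Agent.P273.H26.AId
import Vale.Agent.P273.H965.ColG

/-!
# P273, crew ASY0: `Asy κ gauge0`, the assembly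

`asy0_pre` : from the form of the necks (936, 604), of the cores (951, 681) and the rigidity (442).
-/

noncomputable section

namespace Vale.Agent.P273.H803

open Set Filter H681 H95 H732 H562 H973
open scoped Topology ContDiff

/-- the constants of the matching -/
def kapT : Fin 3 → Fin 3 → ℝ := H132.kap0 H517.u0

/-- the explicit family on the necks -/
theorem asyNeckU (U : H132.UData) : AsyQ Neck (H132.kap0 U) (H132.lgU U) where
  b1 := H863.neck_b1 U
  b2 := H863.neck_b2 U
  b4 := H863.neck_b4 U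
  b5 := H863.neck_b5 U
  b6 := H863.neck_b6 U
  limN R m S hS B p hp hy j _ k h ξ hξ d hd := H132.limN_lgU U R m S hS B p hp hy j k h ξ hξ d hd
  limC R m S hS B p hp hy j hj b hb ξ hξ d hd := by
    obtain ⟨k, hk⟩ := hj
    rw [hk] at hb
    cases hb
  lim0 := H132.lim0N_lgU U

/-- marks of the cores, from the pointwise form -/
theorem asyCore {Q : MarkP} {D : H722.KapData (Fin 3)} {lg : LegF} {κ : Fin 3 → Fin 3 → ℝ}
    (hQ : ∀ R S j, Q R S j → ∃ b, R.pl j = Sum.inr b) (hκ : H233.LimC.Kap0 D κ)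
    (h : H951.CoreForm Q D lg) : AsyQ Q κ lg where
  b1 := (H680.cform_of hQ h).b1
  b2 := (H680.cform_of hQ h).b2
  b4 := (H680.cform_of hQ h).b4
  b5 := (H680.cform_of hQ h).b5
  b6 := (H680.cform_of hQ h).b6
  limN := H951.limN_core hQ
  limC := h.limC hκ
  lim0 := h.lim0 hQ

/-- the family of one mark of the harmonic gauge -/
theorem asyP_pre (h1 : NeckForm (H132.lgU H517.u0) (lgP H580.theOne))
    (h2 : H951.CoreForm Near0 H517.u0.D (lgP H580.theOne))
    (h3 : H951.CoreForm Far0 H517.u0.D (lgP H580.theOne)) : AsyL kapT (lgP H580.theOne) :=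
  asyL_of_three (h1.asy (asyNeckU H517.u0))
    (asyCore (fun _ _ _ h => h.2) (H233.LimC.kap0_ok H517.u0) h2)
    (asyCore (fun _ _ _ h => h.2) (H233.LimC.kap0_ok H517.u0) h3)

/-- fibrewise bounds of the harmonic gauge -/
theorem vert0 : Vert H580.theOne := H97.vert_of H580.theFlatFam H26.aId

/-- marks that are close have the same form -/
theorem col0 : Col gauge0 := H965.col_of H580.theFlatFam rfl

/-- **the recursion** -/
theorem asyT_pre {κ : Fin 3 → Fin 3 → ℝ} {O : One} (hA : AsyL κ (lgP O)) (hV : Vert O)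
    (hZ : H778.Disc0 O) (h5 : H768.T2.InB5) :
    AsyL κ fun R m S j ξ p => leg R m (gaugeOf O) S j ξ p :=
  H778.asyL_of_lims hA hV (H655.inA4 H578.inA0 hZ) (H768.T2.limN_of hA hV h5)
    (H768.T2.limC_of hA hV h5) (H768.T2.lim0_of hA hV h5)

/-- **the assembly** -/
theorem asy0_pre (h1 : NeckForm (H132.lgU H517.u0) (lgP H580.theOne))
    (h2 : H951.CoreForm Near0 H517.u0.D (lgP H580.theOne))
    (h3 : H951.CoreForm Far0 H517.u0.D (lgP H580.theOne)) (h5 : H768.T2.InB5) :
    Asy kapT gauge0 :=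
  asy_of_asyL (asyT_pre (asyP_pre h1 h2 h3) vert0 H214.disc0 h5) col0

end Vale.Agent.P273.H803

end
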