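import Mathlib

/-!
# P273, LIM-G [C]: the gauge in the log coordinates of a neck, derivative and bounds

`E = ℝ × ℝ × (Fin 3 → ℝ) × (Fin 3 → ℝ)` with the coordinates `(S, Θ, y, α)`.
-/

open Set Filter Topology Metric Complex

noncomputable section

namespace Vale.Agent.P273.H803

/-- real triples -/
abbrev V3 : Type := Fin 3 → ℝ
/-- the base: `(y, α)` -/
abbrev Bs : Type := V3 × V3
/-- complex triples -/
abbrev W3 : Type := Fin 3 → ℂ
/-- the log coordinates `(S, Θ, (y, α))` of a point in a neck -/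
abbrev Lg : Type := ℝ × ℝ × Bs

/-- the node parameters `ε_l = exp (- y_l + i α_l)` -/
def eps (t : Bs) : W3 := fun l => cexp (-(t.1 l : ℂ) + (t.2 l : ℂ) * I)

/-- the neck coordinate `X = exp (- S + i Θ)` -/
def Xc (q : Lg) : ℂ := cexp (-(q.1 : ℂ) + (q.2.1 : ℂ) * I)

/-- the other neck coordinate `Y = exp (- (y_k - S) + i (α_k - Θ))` -/
def Yc (k : Fin 3) (q : Lg) : ℂ :=
  cexp (-((q.2.2.1 k : ℂ) - q.1) + ((q.2.2.2 k : ℂ) - q.2.1) * I)

theorem Xc_mul_Yc (k : Fin 3) (q : Lg) : Xc q * Yc k q = eps q.2.2 k := by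
  unfold Xc Yc eps
  rw [← Complex.exp_add]
  congr 1
  ring

theorem norm_eps (t : Bs) (l : Fin 3) : ‖eps t l‖ = Real.exp (-(t.1 l)) := by
  unfold eps
  rw [Complex.norm_exp]
  simp

theorem norm_Xc (q : Lg) : ‖Xc q‖ = Real.exp (-q.1) := by
  unfold Xc
  rw [Complex.norm_exp]
  simp

theorem norm_Yc (k : Fin 3) (q : Lg) : ‖Yc k q‖ = Real.exp (-(q.2.2.1 k - q.1)) := by
  unfold Yc
  rw [Complex.norm_exp]
  simp

/-- the complex logarithmic derivative of `X`: `- dS + i dΘ` -/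
def dX : Lg →L[ℝ] ℂ :=
  -(Complex.ofRealCLM.comp (ContinuousLinearMap.fst ℝ ℝ (ℝ × Bs))) +
    I • (Complex.ofRealCLM.comp ((ContinuousLinearMap.fst ℝ ℝ Bs).comp
      (ContinuousLinearMap.snd ℝ ℝ (ℝ × Bs))))

/-- the projection to the base -/
def prB : Lg →L[ℝ] Bs :=
  (ContinuousLinearMap.snd ℝ ℝ Bs).comp (ContinuousLinearMap.snd ℝ ℝ (ℝ × Bs))

/-- the complex logarithmic derivative of `ε_l`: `- dy_l + i dα_l` -/
def dE (l : Fin 3) : Bs →L[ℝ] ℂ :=
  -(Complex.ofRealCLM.comp ((ContinuousLinearMap.proj l).comp (ContinuousLinearMap.fst ℝ V3 V3))) +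
    I • (Complex.ofRealCLM.comp
      ((ContinuousLinearMap.proj l).comp (ContinuousLinearMap.snd ℝ V3 V3)))

/-- the complex logarithmic derivative of `Y` -/
def dY (k : Fin 3) : Lg →L[ℝ] ℂ := (dE k).comp prB - dX

theorem dX_apply (v : Lg) : dX v = -(v.1 : ℂ) + I * v.2.1 := by
  simp [dX]

theorem prB_apply (v : Lg) : prB v = v.2.2 := rfl

theorem dE_apply (l : Fin 3) (v : Bs) : dE l v = -(v.1 l : ℂ) + I * v.2 l := by
  simp [dE]

theorem dY_apply (k : Fin 3) (v : Lg) :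
    dY k v = -((v.2.2.1 k : ℂ) - v.1) + I * ((v.2.2.2 k : ℂ) - v.2.1) := by
  simp only [dY, ContinuousLinearMap.sub_apply, ContinuousLinearMap.comp_apply, prB_apply,
    dE_apply, dX_apply]
  ring

theorem norm_dX_le (v : Lg) : ‖dX v‖ ≤ |v.1| + |v.2.1| := by
  rw [dX_apply]
  refine (norm_add_le _ _).trans (le_of_eq ?_)
  rw [norm_neg, norm_mul, Complex.norm_I, one_mul, Complex.norm_real, Complex.norm_real]
  rfl

theorem norm_dY_le (k : Fin 3) (v : Lg) :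
    ‖dY k v‖ ≤ |v.2.2.1 k - v.1| + |v.2.2.2 k - v.2.1| := by
  rw [dY_apply]
  refine (norm_add_le _ _).trans (le_of_eq ?_)
  rw [norm_neg, norm_mul, Complex.norm_I, one_mul, ← Complex.ofReal_sub, ← Complex.ofReal_sub,
    Complex.norm_real, Complex.norm_real]
  rfl

theorem norm_dE_le (l : Fin 3) (v : Bs) : ‖dE l v‖ ≤ |v.1 l| + |v.2 l| := by
  rw [dE_apply]
  refine (norm_add_le _ _).trans (le_of_eq ?_)
  rw [norm_neg, norm_mul, Complex.norm_I, one_mul, Complex.norm_real, Complex.norm_real]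
  rfl

theorem hasFDerivAt_Xc (q : Lg) : HasFDerivAt Xc (Xc q • dX) q := by
  have h : HasFDerivAt (fun q : Lg => -(q.1 : ℂ) + (q.2.1 : ℂ) * I) dX q := by
    have h1 : (fun q : Lg => -(q.1 : ℂ) + (q.2.1 : ℂ) * I) = fun q => dX q := by
      funext q
      rw [dX_apply]
      ring
    rw [h1]
    exact dX.hasFDerivAt
  exact h.cexp

theorem hasFDerivAt_Yc (k : Fin 3) (q : Lg) : HasFDerivAt (Yc k) (Yc k q • dY k) q := by
  have h : HasFDerivAt
      (fun q : Lg => -((q.2.2.1 k : ℂ) - q.1) + ((q.2.2.2 k : ℂ) - q.2.1) * I) (dY k) q := by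
    have h1 : (fun q : Lg => -((q.2.2.1 k : ℂ) - q.1) + ((q.2.2.2 k : ℂ) - q.2.1) * I) =
        fun q => dY k q := by
      funext q
      rw [dY_apply]
      ring
    rw [h1]
    exact (dY k).hasFDerivAt
  exact h.cexp

/-- the derivative of `ε` -/
def epsD (t : Bs) : Bs →L[ℝ] W3 := ContinuousLinearMap.pi fun l => eps t l • dE l

theorem hasFDerivAt_eps (t : Bs) : HasFDerivAt eps (epsD t) t := by
  rw [hasFDerivAt_pi']
  intro l
  have h : HasFDerivAt (fun t : Bs => -(t.1 l : ℂ) + (t.2 l : ℂ) * I) (dE l) t := by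
    have h1 : (fun t : Bs => -(t.1 l : ℂ) + (t.2 l : ℂ) * I) = fun t => dE l t := by
      funext t
      rw [dE_apply]
      ring
    rw [h1]
    exact (dE l).hasFDerivAt
  exact h.cexp

theorem norm_eps_le {t : Bs} {m : ℝ} (hm : ∀ l, m ≤ t.1 l) : ‖eps t‖ ≤ Real.exp (-m) := by
  rw [pi_norm_le_iff_of_nonneg (Real.exp_pos _).le]
  intro l
  rw [norm_eps]
  exact Real.exp_le_exp.2 (neg_le_neg (hm l))

theorem norm_epsD_le {t : Bs} {m : ℝ} (hm : ∀ l, m ≤ t.1 l) (v : Bs) :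
    ‖epsD t v‖ ≤ Real.exp (-m) * (‖v.1‖ + ‖v.2‖) := by
  rw [pi_norm_le_iff_of_nonneg (by positivity)]
  intro l
  have h1 : (epsD t v) l = eps t l * dE l v := rfl
  rw [h1, norm_mul, norm_eps]
  have h2 := norm_dE_le l v
  have h3 : |v.1 l| ≤ ‖v.1‖ := norm_le_pi_norm v.1 l
  have h4 : |v.2 l| ≤ ‖v.2‖ := norm_le_pi_norm v.2 l
  exact mul_le_mul (Real.exp_le_exp.2 (neg_le_neg (hm l))) (by linarith) (norm_nonneg _)
    (Real.exp_pos _).le

end Vale.Agent.P273.H803
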