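import Vale.Agent.P273.H803.LegNeck

/-!
# P273, LIM-G [C]: the harmonic potential in a neck, linear logarithmic coordinates

`lX lY : E →L[ℝ] ℂ` are the logarithms of the two neck coordinates `X, Y` of a mark (732: `LX`, `LY`),
`lX + lY = - y + i α`.  `UL` is `UN` of LegNeck for these coordinates, `ULD` its derivative.

* `UL_bound`: every direction, with the sizes `‖lX v‖`, `‖lY v‖` next to `‖X‖`, `‖Y‖`;
* `UL_bound_eul`: the Euler vector of the neck (`lX v = - S / y`, `lY v = - (y - S) / y`);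
* `UL_bound_zero`: directions in which the mark does not move (`lX v = lY v = 0`).
-/

open Set Filter Topology Metric Complex

noncomputable section

namespace Vale.Agent.P273.H803

variable {E P W : Type*} [NormedAddCommGroup E] [NormedSpace ℝ E]
  [NormedAddCommGroup P] [NormedSpace ℝ P] [NormedAddCommGroup W] [NormedSpace ℂ W]

/-- the size coordinate `S = - re lX` -/
def fS (lX : E →L[ℝ] ℂ) : E →L[ℝ] ℝ := -(Complex.reCLM.comp lX)

/-- the angle coordinate `Θ = im lX` -/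
def fT (lX : E →L[ℝ] ℂ) : E →L[ℝ] ℝ := Complex.imCLM.comp lX

@[simp] theorem fS_apply (lX : E →L[ℝ] ℂ) (v : E) : fS lX v = -(lX v).re := rfl

@[simp] theorem fT_apply (lX : E →L[ℝ] ℂ) (v : E) : fT lX v = (lX v).im := rfl

theorem fS_add (lX lY : E →L[ℝ] ℂ) (v : E) : fS (lX + lY) v = fS lX v + fS lY v := by
  simp; ring

theorem fT_add (lX lY : E →L[ℝ] ℂ) (v : E) : fT (lX + lY) v = fT lX v + fT lY v := by
  simp

theorem abs_fS_le (lX : E →L[ℝ] ℂ) (v : E) : |fS lX v| ≤ ‖lX v‖ := by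
  rw [fS_apply, abs_neg]
  exact Complex.abs_re_le_norm _

theorem abs_fT_le (lX : E →L[ℝ] ℂ) (v : E) : |fT lX v| ≤ ‖lX v‖ := by
  rw [fT_apply]
  exact Complex.abs_im_le_norm _

theorem ex_lin (lX : E →L[ℝ] ℂ) (q : E) : ex (fS lX) (fT lX) q = cexp (lX q) := by
  unfold ex
  congr 1
  apply Complex.ext <;> simp

theorem ex_lin_sub (lX lY : E →L[ℝ] ℂ) (q : E) :
    ex (fun q => fS (lX + lY) q - fS lX q) (fun q => fT (lX + lY) q - fT lX q) q =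
      cexp (lY q) := by
  unfold ex
  congr 1
  apply Complex.ext <;> simp

theorem lf_lin (lX : E →L[ℝ] ℂ) : lf (fS lX) (fT lX) = lX := by
  ext v
  rw [lf_apply]
  apply Complex.ext <;> simp

theorem lf_lin_sub (lX lY : E →L[ℝ] ℂ) :
    lf (fS (lX + lY) - fS lX) (fT (lX + lY) - fT lX) = lY := by
  ext v
  rw [lf_apply]
  apply Complex.ext <;> simp

/-- the potential in a neck, linear logarithmic coordinates -/
def UL (h : P × ℂ → W →L[ℂ] ℂ) (ξ β : ℝ) (p : E → P) (lX lY : E →L[ℝ] ℂ) (w : E → ℝ) (c : E → W) :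
    E → ℝ :=
  UN h ξ β p (fS lX) (fT lX) (fS (lX + lY)) (fT (lX + lY)) w c

omit [NormedSpace ℝ P] in
theorem UL_apply (h : P × ℂ → W →L[ℂ] ℂ) (ξ β : ℝ) (p : E → P) (lX lY : E →L[ℝ] ℂ) (w : E → ℝ)
    (c : E → W) (q : E) :
    UL h ξ β p lX lY w c q =
      ξ + w q * (1 - 2 * fS lX q / fS (lX + lY) q) -
        β / Real.pi * (fT lX q - fT (lX + lY) q / 2) +
        ((cexp (lX q) * h (p q, cexp (lX q)) (c q)).re -
          (cexp (lY q) * h (p q, cexp (lY q)) (c q)).re) := by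
  unfold UL UN Zf
  rw [ex_lin, ex_lin_sub]

/-- the derivative of `UL` -/
def ULD (h0 h1 : W →L[ℂ] ℂ) (hX' hY' : P × ℂ →L[ℝ] (W →L[ℂ] ℂ)) (β : ℝ) (lX lY : E →L[ℝ] ℂ)
    (q : E) (w0 : ℝ) (c0 : W) (p' : E →L[ℝ] P) (w' : E →L[ℝ] ℝ) (c' : E →L[ℝ] W) : E →L[ℝ] ℝ :=
  UP β (fS lX q) (fS (lX + lY) q) w0 (fS lX) (fT lX) (fS (lX + lY)) (fT (lX + lY)) w' +
    (Complex.reCLM.comp (ZfD h0 hX' (cexp (lX q)) c0 p' (cexp (lX q) • lX) c') -
      Complex.reCLM.comp (ZfD h1 hY' (cexp (lY q)) c0 p' (cexp (lY q) • lY) c'))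

theorem hasFDerivAt_UL {h : P × ℂ → W →L[ℂ] ℂ} {ξ β : ℝ} {p : E → P} {lX lY : E →L[ℝ] ℂ}
    {w : E → ℝ} {c : E → W} {hX' hY' : P × ℂ →L[ℝ] (W →L[ℂ] ℂ)} {p' : E →L[ℝ] P}
    {w' : E →L[ℝ] ℝ} {c' : E →L[ℝ] W} {q : E} (hy0 : fS (lX + lY) q ≠ 0)
    (hX : HasFDerivAt h hX' (p q, cexp (lX q))) (hY : HasFDerivAt h hY' (p q, cexp (lY q)))
    (hp : HasFDerivAt p p' q) (hw : HasFDerivAt w w' q) (hc : HasFDerivAt c c' q) :
    HasFDerivAt (UL h ξ β p lX lY w c)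
      (ULD (h (p q, cexp (lX q))) (h (p q, cexp (lY q))) hX' hY' β lX lY q (w q) (c q) p' w' c')
      q := by
  have hX2 : HasFDerivAt h hX' (p q, ex (fS lX) (fT lX) q) := by rw [ex_lin]; exact hX
  have hY2 : HasFDerivAt h hY' (p q, ex (fun q => fS (lX + lY) q - fS lX q)
      (fun q => fT (lX + lY) q - fT lX q) q) := by rw [ex_lin_sub]; exact hY
  have e := hasFDerivAt_UN (ξ := ξ) (β := β) hy0 hX2 hY2 hp (fS lX).hasFDerivAt (fT lX).hasFDerivAt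
    (fS (lX + lY)).hasFDerivAt (fT (lX + lY)).hasFDerivAt hw hc
  rw [ex_lin, ex_lin_sub, lf_lin, lf_lin_sub] at e
  exact e

/-- **all directions**: the moving parts carry `‖X‖ ‖lX v‖`, `‖Y‖ ‖lY v‖` -/
theorem UL_bound {h0 h1 : W →L[ℂ] ℂ} {hX' hY' : P × ℂ →L[ℝ] (W →L[ℂ] ℂ)} {A β w0 : ℝ}
    {lX lY : E →L[ℝ] ℂ} {q : E} {c0 : W} {p' : E →L[ℝ] P} {w' : E →L[ℝ] ℝ} {c' : E →L[ℝ] W}
    (a0 : ‖h0‖ ≤ A) (a1 : ‖h1‖ ≤ A) (aX : ‖hX'‖ ≤ A) (aY : ‖hY'‖ ≤ A)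
    (hS0 : 0 ≤ fS lX q) (hS1 : 0 ≤ fS lY q) (hy0 : 0 < fS (lX + lY) q) {v : E} {L : ℝ}
    (hLX : ‖lX v‖ ≤ L) (hLY : ‖lY v‖ ≤ L) :
    |ULD h0 h1 hX' hY' β lX lY q w0 c0 p' w' c' v| ≤
      |w' v| + (2 * |w0| / fS (lX + lY) q + |β| / Real.pi) * L +
        4 * A * ‖c0‖ * (Real.exp (-fS lX q) * ‖lX v‖ + Real.exp (-fS lY q) * ‖lY v‖) +
        A * (Real.exp (-fS lX q) + Real.exp (-fS lY q)) * (‖c0‖ * ‖p' v‖ + ‖c' v‖) := by
  have hA : 0 ≤ A := (norm_nonneg _).trans a0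
  have nX : ‖cexp (lX q)‖ = Real.exp (-fS lX q) := by
    rw [Complex.norm_exp, fS_apply, neg_neg]
  have nY : ‖cexp (lY q)‖ = Real.exp (-fS lY q) := by
    rw [Complex.norm_exp, fS_apply, neg_neg]
  have bX : ‖cexp (lX q)‖ ≤ 1 := by
    rw [nX, Real.exp_le_one_iff]; linarith
  have bY : ‖cexp (lY q)‖ ≤ 1 := by
    rw [nY, Real.exp_le_one_iff]; linarith
  have hsum := fS_add lX lY q
  have hsumT := fT_add lX lY q
  have hS1' : fS lX q ≤ fS (lX + lY) q := by linarith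
  have e := UN_bound (β := β) (w0 := w0) (X0 := cexp (lX q)) (Y0 := cexp (lY q)) (c0 := c0)
    (p' := p') (S' := fS lX) (Θ' := fT lX) (y' := fS (lX + lY)) (α' := fT (lX + lY)) (w' := w')
    (c' := c') a0 a1 aX aY bX bY hS0 hS1' hy0 v
  rw [lf_lin, lf_lin_sub] at e
  refine e.trans ?_
  rw [nX, nY]
  have d1 : fS (lX + lY) v = fS lX v + fS lY v := fS_add lX lY v
  have d2 : fT (lX + lY) v = fT lX v + fT lY v := fT_add lX lY v
  have m1 := abs_fS_le lX v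
  have m2 := abs_fS_le lY v
  have m3 := abs_fT_le lX v
  have m4 := abs_fT_le lY v
  -- polyhedral part
  set y0 := fS (lX + lY) q with hy0d
  set t := fS lX q / y0 with ht
  have t0 : 0 ≤ t := div_nonneg hS0 hy0.le
  have t1 : t ≤ 1 := (div_le_one hy0).2 hS1'
  have p1 : |fS lX v - t * fS (lX + lY) v| ≤ L := by
    rw [d1]
    have : fS lX v - t * (fS lX v + fS lY v) = (1 - t) * fS lX v - t * fS lY v := by ring
    rw [this]
    refine (abs_sub _ _).trans ?_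
    rw [abs_mul, abs_mul, abs_of_nonneg t0, abs_of_nonneg (by linarith : (0 : ℝ) ≤ 1 - t)]
    have q1 : (1 - t) * |fS lX v| ≤ (1 - t) * L :=
      mul_le_mul_of_nonneg_left (m1.trans hLX) (by linarith)
    have q2 : t * |fS lY v| ≤ t * L := mul_le_mul_of_nonneg_left (m2.trans hLY) t0
    linarith
  have p2 : |fT lX v - 1 / 2 * fT (lX + lY) v| ≤ L := by
    rw [d2]
    have : fT lX v - 1 / 2 * (fT lX v + fT lY v) = 1 / 2 * fT lX v - 1 / 2 * fT lY v := by ring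
    rw [this]
    refine (abs_sub _ _).trans ?_
    rw [abs_mul, abs_mul, abs_of_pos (by norm_num : (0 : ℝ) < 1 / 2)]
    linarith
  have p3 : 2 * |w0| / y0 * |fS lX v - t * fS (lX + lY) v| ≤ 2 * |w0| / y0 * L :=
    mul_le_mul_of_nonneg_left p1 (by positivity)
  have p4 : |β| / Real.pi * |fT lX v - 1 / 2 * fT (lX + lY) v| ≤ |β| / Real.pi * L :=
    mul_le_mul_of_nonneg_left p2 (by positivity)
  have p5 : A * Real.exp (-fS lX q) * (‖c0‖ * (2 * (|fS lX v| + |fT lX v|) + ‖p' v‖) + ‖c' v‖) ≤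
      A * Real.exp (-fS lX q) * (‖c0‖ * (4 * ‖lX v‖ + ‖p' v‖) + ‖c' v‖) := by
    have z0 : 2 * (|fS lX v| + |fT lX v|) + ‖p' v‖ ≤ 4 * ‖lX v‖ + ‖p' v‖ := by linarith
    exact mul_le_mul_of_nonneg_left (add_le_add
      (mul_le_mul_of_nonneg_left z0 (norm_nonneg _)) le_rfl) (by positivity)
  have p6 : A * Real.exp (-fS lY q) * (‖c0‖ * (2 * (|fS (lX + lY) v - fS lX v| +
        |fT (lX + lY) v - fT lX v|) + ‖p' v‖) + ‖c' v‖) ≤
      A * Real.exp (-fS lY q) * (‖c0‖ * (4 * ‖lY v‖ + ‖p' v‖) + ‖c' v‖) := by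
    have z1 : fS (lX + lY) v - fS lX v = fS lY v := by rw [d1]; ring
    have z2 : fT (lX + lY) v - fT lX v = fT lY v := by rw [d2]; ring
    rw [z1, z2]
    have z0 : 2 * (|fS lY v| + |fT lY v|) + ‖p' v‖ ≤ 4 * ‖lY v‖ + ‖p' v‖ := by linarith
    exact mul_le_mul_of_nonneg_left (add_le_add
      (mul_le_mul_of_nonneg_left z0 (norm_nonneg _)) le_rfl) (by positivity)
  have p7 : A * Real.exp (-fS lX q) * (‖c0‖ * (4 * ‖lX v‖ + ‖p' v‖) + ‖c' v‖) +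
      A * Real.exp (-fS lY q) * (‖c0‖ * (4 * ‖lY v‖ + ‖p' v‖) + ‖c' v‖) =
      4 * A * ‖c0‖ * (Real.exp (-fS lX q) * ‖lX v‖ + Real.exp (-fS lY q) * ‖lY v‖) +
        A * (Real.exp (-fS lX q) + Real.exp (-fS lY q)) * (‖c0‖ * ‖p' v‖ + ‖c' v‖) := by ring
  linarith

theorem mul_exp_neg_le {s : ℝ} : s * Real.exp (-s) ≤ 1 := by
  have h1 := Real.add_one_le_exp s
  have h2 : s ≤ Real.exp s := by linarith
  have h3 := mul_le_mul_of_nonneg_right h2 (Real.exp_pos (-s)).le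
  rw [← Real.exp_add, add_neg_cancel, Real.exp_zero] at h3
  exact h3

/-- **the Euler vector of the neck of the mark** -/
theorem UL_bound_eul {h0 h1 : W →L[ℂ] ℂ} {hX' hY' : P × ℂ →L[ℝ] (W →L[ℂ] ℂ)} {A β w0 : ℝ}
    {lX lY : E →L[ℝ] ℂ} {q : E} {c0 : W} {p' : E →L[ℝ] P} {w' : E →L[ℝ] ℝ} {c' : E →L[ℝ] W}
    (a0 : ‖h0‖ ≤ A) (a1 : ‖h1‖ ≤ A) (aX : ‖hX'‖ ≤ A) (aY : ‖hY'‖ ≤ A)
    (hS0 : 0 ≤ fS lX q) (hS1 : 0 ≤ fS lY q) (hy0 : 0 < fS (lX + lY) q) {v : E}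
    (hX : lX v = -((fS lX q / fS (lX + lY) q : ℝ) : ℂ))
    (hY : lY v = -((fS lY q / fS (lX + lY) q : ℝ) : ℂ)) :
    |ULD h0 h1 hX' hY' β lX lY q w0 c0 p' w' c' v| ≤
      |w' v| + 4 * A * ‖c0‖ / fS (lX + lY) q + 2 * A * (‖c0‖ * ‖p' v‖ + ‖c' v‖) := by
  have hA : 0 ≤ A := (norm_nonneg _).trans a0
  have nX : ‖cexp (lX q)‖ = Real.exp (-fS lX q) := by
    rw [Complex.norm_exp, fS_apply, neg_neg]
  have nY : ‖cexp (lY q)‖ = Real.exp (-fS lY q) := by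
    rw [Complex.norm_exp, fS_apply, neg_neg]
  have bX : ‖cexp (lX q)‖ ≤ 1 := by
    rw [nX, Real.exp_le_one_iff]; linarith
  have bY : ‖cexp (lY q)‖ ≤ 1 := by
    rw [nY, Real.exp_le_one_iff]; linarith
  have hsum := fS_add lX lY q
  have hS1' : fS lX q ≤ fS (lX + lY) q := by linarith
  have e := UN_bound (β := β) (w0 := w0) (X0 := cexp (lX q)) (Y0 := cexp (lY q)) (c0 := c0)
    (p' := p') (S' := fS lX) (Θ' := fT lX) (y' := fS (lX + lY)) (α' := fT (lX + lY)) (w' := w')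
    (c' := c') a0 a1 aX aY bX bY hS0 hS1' hy0 v
  rw [lf_lin, lf_lin_sub] at e
  refine e.trans ?_
  rw [nX, nY]
  set y0 := fS (lX + lY) q with hy0d
  have sX : fS lX v = fS lX q / y0 := by
    rw [fS_apply, hX, Complex.neg_re, Complex.ofReal_re, neg_neg]
  have sY : fS lY v = fS lY q / y0 := by
    rw [fS_apply, hY, Complex.neg_re, Complex.ofReal_re, neg_neg]
  have tX : fT lX v = 0 := by
    rw [fT_apply, hX, Complex.neg_im, Complex.ofReal_im, neg_zero]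
  have tY : fT lY v = 0 := by
    rw [fT_apply, hY, Complex.neg_im, Complex.ofReal_im, neg_zero]
  have d1 : fS (lX + lY) v = 1 := by
    rw [fS_add, sX, sY, ← add_div, ← hsum, div_self hy0.ne']
  have d2 : fT (lX + lY) v = 0 := by rw [fT_add, tX, tY, add_zero]
  have z1 : fS lX v - fS lX q / y0 * fS (lX + lY) v = 0 := by rw [d1, sX]; ring
  have z2 : fT lX v - 1 / 2 * fT (lX + lY) v = 0 := by rw [d2, tX]; ring
  have z3 : fS (lX + lY) v - fS lX v = fS lY q / y0 := by rw [fS_add, sY]; ring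
  have z4 : fT (lX + lY) v - fT lX v = 0 := by rw [d2, tX]; ring
  rw [z1, z2, z3, z4, sX, tX, abs_zero, abs_of_nonneg (div_nonneg hS0 hy0.le),
    abs_of_nonneg (div_nonneg hS1 hy0.le)]
  have k1 : Real.exp (-fS lX q) * (fS lX q / y0) ≤ 1 / y0 := by
    have := mul_exp_neg_le (s := fS lX q)
    rw [mul_div_assoc', div_le_div_iff_of_pos_right hy0]
    linarith
  have k2 : Real.exp (-fS lY q) * (fS lY q / y0) ≤ 1 / y0 := by
    have := mul_exp_neg_le (s := fS lY q)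
    rw [mul_div_assoc', div_le_div_iff_of_pos_right hy0]
    linarith
  have k3 : Real.exp (-fS lX q) ≤ 1 := by rw [← nX]; exact bX
  have k4 : Real.exp (-fS lY q) ≤ 1 := by rw [← nY]; exact bY
  have r1 : A * Real.exp (-fS lX q) * (‖c0‖ * (2 * (fS lX q / y0 + 0) + ‖p' v‖) + ‖c' v‖) =
      2 * A * ‖c0‖ * (Real.exp (-fS lX q) * (fS lX q / y0)) +
        Real.exp (-fS lX q) * (A * (‖c0‖ * ‖p' v‖ + ‖c' v‖)) := by ring
  have r2 : A * Real.exp (-fS lY q) * (‖c0‖ * (2 * (fS lY q / y0 + 0) + ‖p' v‖) + ‖c' v‖) =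
      2 * A * ‖c0‖ * (Real.exp (-fS lY q) * (fS lY q / y0)) +
        Real.exp (-fS lY q) * (A * (‖c0‖ * ‖p' v‖ + ‖c' v‖)) := by ring
  rw [r1, r2]
  have s1 : 2 * A * ‖c0‖ * (Real.exp (-fS lX q) * (fS lX q / y0)) ≤ 2 * A * ‖c0‖ * (1 / y0) :=
    mul_le_mul_of_nonneg_left k1 (by positivity)
  have s2 : 2 * A * ‖c0‖ * (Real.exp (-fS lY q) * (fS lY q / y0)) ≤ 2 * A * ‖c0‖ * (1 / y0) :=
    mul_le_mul_of_nonneg_left k2 (by positivity)
  have s3 : Real.exp (-fS lX q) * (A * (‖c0‖ * ‖p' v‖ + ‖c' v‖)) ≤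
      1 * (A * (‖c0‖ * ‖p' v‖ + ‖c' v‖)) := mul_le_mul_of_nonneg_right k3 (by positivity)
  have s4 : Real.exp (-fS lY q) * (A * (‖c0‖ * ‖p' v‖ + ‖c' v‖)) ≤
      1 * (A * (‖c0‖ * ‖p' v‖ + ‖c' v‖)) := mul_le_mul_of_nonneg_right k4 (by positivity)
  have s5 : 4 * A * ‖c0‖ / y0 = 2 * A * ‖c0‖ * (1 / y0) + 2 * A * ‖c0‖ * (1 / y0) := by ring
  rw [s5, mul_zero, mul_zero]
  linarith

/-- directions in which the mark does not move -/
theorem UL_bound_zero {h0 h1 : W →L[ℂ] ℂ} {hX' hY' : P × ℂ →L[ℝ] (W →L[ℂ] ℂ)} {A β w0 : ℝ}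
    {lX lY : E →L[ℝ] ℂ} {q : E} {c0 : W} {p' : E →L[ℝ] P} {w' : E →L[ℝ] ℝ} {c' : E →L[ℝ] W}
    (a0 : ‖h0‖ ≤ A) (a1 : ‖h1‖ ≤ A) (aX : ‖hX'‖ ≤ A) (aY : ‖hY'‖ ≤ A)
    (hS0 : 0 ≤ fS lX q) (hS1 : 0 ≤ fS lY q) (hy0 : 0 < fS (lX + lY) q) {v : E}
    (hX : lX v = 0) (hY : lY v = 0) :
    |ULD h0 h1 hX' hY' β lX lY q w0 c0 p' w' c' v| ≤
      |w' v| + 2 * A * (‖c0‖ * ‖p' v‖ + ‖c' v‖) := by
  have hA : 0 ≤ A := (norm_nonneg _).trans a0
  have e := UL_bound (β := β) (w0 := w0) (c0 := c0) (p' := p') (w' := w') (c' := c') a0 a1 aX aY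
    hS0 hS1 hy0 (v := v) (L := 0) (by rw [hX, norm_zero]) (by rw [hY, norm_zero])
  rw [hX, hY, norm_zero, mul_zero, mul_zero, mul_zero, add_zero, add_zero, mul_zero,
    add_zero] at e
  refine e.trans ?_
  have k3 : Real.exp (-fS lX q) ≤ 1 := Real.exp_le_one_iff.2 (by linarith)
  have k4 : Real.exp (-fS lY q) ≤ 1 := Real.exp_le_one_iff.2 (by linarith)
  have : A * (Real.exp (-fS lX q) + Real.exp (-fS lY q)) * (‖c0‖ * ‖p' v‖ + ‖c' v‖) ≤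
      2 * A * (‖c0‖ * ‖p' v‖ + ‖c' v‖) := by
    have h2 : A * (Real.exp (-fS lX q) + Real.exp (-fS lY q)) ≤ 2 * A := by
      have := mul_le_mul_of_nonneg_left (add_le_add k3 k4) hA
      linarith
    exact mul_le_mul_of_nonneg_right h2 (by positivity)
  linarith

end Vale.Agent.P273.H803
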