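import Mathlib

/-!
# P273, LIM-G [C]: the regular part `Re (X · h (p, X) c)` of a potential in a neck

Everything is over an arbitrary real normed space `E` of coordinates: `p : E → P` (parameters),
`X : E → ℂ` (neck coordinate), `c : E → W` (coefficients). `Z h p X c q = X q * h (p q, X q) (c q)`.
-/

open Set Filter Topology Metric Complex

noncomputable section

namespace Vale.Agent.P273.H803

variable {E P W : Type*} [NormedAddCommGroup E] [NormedSpace ℝ E]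
  [NormedAddCommGroup P] [NormedSpace ℝ P] [NormedAddCommGroup W] [NormedSpace ℂ W]

/-- the regular part -/
def Zf (h : P × ℂ → W →L[ℂ] ℂ) (p : E → P) (X : E → ℂ) (c : E → W) (q : E) : ℂ :=
  X q * h (p q, X q) (c q)

/-- the derivative of the regular part -/
def ZfD (h0 : W →L[ℂ] ℂ) (h' : P × ℂ →L[ℝ] (W →L[ℂ] ℂ)) (X0 : ℂ) (c0 : W)
    (p' : E →L[ℝ] P) (X' : E →L[ℝ] ℂ) (c' : E →L[ℝ] W) : E →L[ℝ] ℂ :=
  (h0 c0) • X' + X0 • ((((ContinuousLinearMap.apply ℂ ℂ c0).restrictScalars ℝ).comp h').comp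
    (p'.prod X') + (h0.restrictScalars ℝ).comp c')

theorem ZfD_apply (h0 : W →L[ℂ] ℂ) (h' : P × ℂ →L[ℝ] (W →L[ℂ] ℂ)) (X0 : ℂ) (c0 : W)
    (p' : E →L[ℝ] P) (X' : E →L[ℝ] ℂ) (c' : E →L[ℝ] W) (v : E) :
    ZfD h0 h' X0 c0 p' X' c' v =
      h0 c0 * X' v + X0 * (h' (p' v, X' v) c0 + h0 (c' v)) := rfl

theorem hasFDerivAt_Zf {h : P × ℂ → W →L[ℂ] ℂ} {h' : P × ℂ →L[ℝ] (W →L[ℂ] ℂ)} {p : E → P}
    {X : E → ℂ} {c : E → W} {p' : E →L[ℝ] P} {X' : E →L[ℝ] ℂ} {c' : E →L[ℝ] W} {q : E}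
    (hh : HasFDerivAt h h' (p q, X q)) (hp : HasFDerivAt p p' q) (hX : HasFDerivAt X X' q)
    (hc : HasFDerivAt c c' q) :
    HasFDerivAt (Zf h p X c) (ZfD (h (p q, X q)) h' (X q) (c q) p' X' c') q := by
  have h1 : HasFDerivAt (fun q => h (p q, X q)) (h'.comp (p'.prod X')) q :=
    HasFDerivAt.comp (f := fun q => (p q, X q)) q hh (hp.prodMk hX)
  -- evaluation as a real bilinear map
  let B : (W →L[ℂ] ℂ) →L[ℝ] W →L[ℝ] ℂ :=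
    ContinuousLinearMap.restrictScalarsL ℂ W ℂ ℝ ℝ
  have h2 : HasFDerivAt (fun q => B (h (p q, X q)) (c q))
      ((B (h (p q, X q))).comp c' + ((B.comp (h'.comp (p'.prod X'))).flip (c q))) q :=
    HasFDerivAt.clm_apply (B.hasFDerivAt.comp q h1) hc
  have h3 : HasFDerivAt (fun q => X q * B (h (p q, X q)) (c q))
      (X q • ((B (h (p q, X q))).comp c' + ((B.comp (h'.comp (p'.prod X'))).flip (c q))) +
        (B (h (p q, X q)) (c q)) • X') q := hX.mul h2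
  refine h3.congr_fderiv ?_
  ext v
  rw [ZfD_apply]
  have e1 : (X q • ((B (h (p q, X q))).comp c' + ((B.comp (h'.comp (p'.prod X'))).flip (c q))) +
        (B (h (p q, X q)) (c q)) • X') v =
      X q * (h (p q, X q) (c' v) + (h' (p' v, X' v)) (c q)) + h (p q, X q) (c q) * X' v := rfl
  rw [e1]
  ring

/-- the bound of the derivative of the regular part -/
theorem norm_ZfD_le {h0 : W →L[ℂ] ℂ} {h' : P × ℂ →L[ℝ] (W →L[ℂ] ℂ)} {X0 : ℂ} {c0 : W}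
    {p' : E →L[ℝ] P} {X' : E →L[ℝ] ℂ} {c' : E →L[ℝ] W} {A : ℝ} (hA0 : ‖h0‖ ≤ A)
    (hA1 : ‖h'‖ ≤ A) (v : E) :
    ‖ZfD h0 h' X0 c0 p' X' c' v‖ ≤
      A * (‖c0‖ * (‖X' v‖ + ‖X0‖ * (‖p' v‖ + ‖X' v‖)) + ‖X0‖ * ‖c' v‖) := by
  have hA : 0 ≤ A := (norm_nonneg _).trans hA0
  rw [ZfD_apply]
  have e1 : ‖h0 c0 * X' v‖ ≤ A * ‖c0‖ * ‖X' v‖ := by
    rw [norm_mul]
    exact mul_le_mul_of_nonneg_right
      ((h0.le_opNorm c0).trans (mul_le_mul_of_nonneg_right hA0 (norm_nonneg _))) (norm_nonneg _)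
  have e2 : ‖h' (p' v, X' v) c0‖ ≤ A * (‖p' v‖ + ‖X' v‖) * ‖c0‖ := by
    refine ((h' (p' v, X' v)).le_opNorm c0).trans (mul_le_mul_of_nonneg_right ?_ (norm_nonneg _))
    refine (h'.le_opNorm _).trans (mul_le_mul hA1 ?_ (norm_nonneg _) hA)
    rw [Prod.norm_mk]
    exact max_le (le_add_of_nonneg_right (norm_nonneg _)) (le_add_of_nonneg_left (norm_nonneg _))
  have e3 : ‖h0 (c' v)‖ ≤ A * ‖c' v‖ :=
    (h0.le_opNorm _).trans (mul_le_mul_of_nonneg_right hA0 (norm_nonneg _))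
  have e4 : ‖X0 * (h' (p' v, X' v) c0 + h0 (c' v))‖ ≤
      ‖X0‖ * (A * (‖p' v‖ + ‖X' v‖) * ‖c0‖ + A * ‖c' v‖) := by
    rw [norm_mul]
    exact mul_le_mul_of_nonneg_left ((norm_add_le _ _).trans (add_le_add e2 e3)) (norm_nonneg _)
  refine (norm_add_le _ _).trans ((add_le_add e1 e4).trans (le_of_eq ?_))
  ring

/-- the bound in logarithmic form: `X' v = X · ℓ`, `‖X‖ ≤ 1` -/
theorem norm_ZfD_le_log {h0 : W →L[ℂ] ℂ} {h' : P × ℂ →L[ℝ] (W →L[ℂ] ℂ)} {X0 : ℂ} {c0 : W}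
    {p' : E →L[ℝ] P} {l : E →L[ℝ] ℂ} {c' : E →L[ℝ] W} {A : ℝ} (hA0 : ‖h0‖ ≤ A)
    (hA1 : ‖h'‖ ≤ A) (hX : ‖X0‖ ≤ 1) (v : E) :
    ‖ZfD h0 h' X0 c0 p' (X0 • l) c' v‖ ≤
      A * ‖X0‖ * (‖c0‖ * (2 * ‖l v‖ + ‖p' v‖) + ‖c' v‖) := by
  have hA : 0 ≤ A := (norm_nonneg _).trans hA0
  refine (norm_ZfD_le hA0 hA1 v).trans ?_
  have e : ‖(X0 • l) v‖ = ‖X0‖ * ‖l v‖ := by
    rw [ContinuousLinearMap.smul_apply, norm_smul]
  rw [e]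
  have h1 : ‖X0‖ * (‖X0‖ * ‖l v‖) ≤ ‖X0‖ * ‖l v‖ :=
    mul_le_mul_of_nonneg_left (mul_le_of_le_one_left (norm_nonneg _) hX) (norm_nonneg _)
  have h2 : A * (‖c0‖ * (‖X0‖ * ‖l v‖ + ‖X0‖ * (‖p' v‖ + ‖X0‖ * ‖l v‖)) + ‖X0‖ * ‖c' v‖) =
      A * (‖c0‖ * (‖X0‖ * ‖l v‖ + ‖X0‖ * ‖p' v‖ + ‖X0‖ * (‖X0‖ * ‖l v‖)) + ‖X0‖ * ‖c' v‖) := by
    ring
  rw [h2]
  have h3 : A * ‖X0‖ * (‖c0‖ * (2 * ‖l v‖ + ‖p' v‖) + ‖c' v‖) =
      A * (‖c0‖ * (‖X0‖ * ‖l v‖ + ‖X0‖ * ‖p' v‖ + ‖X0‖ * ‖l v‖) + ‖X0‖ * ‖c' v‖) := by ring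
  rw [h3]
  refine mul_le_mul_of_nonneg_left ?_ hA
  have := mul_le_mul_of_nonneg_left (a := ‖c0‖)
    (add_le_add_right h1 (‖X0‖ * ‖l v‖ + ‖X0‖ * ‖p' v‖)) (norm_nonneg _)
  linarith

/-- the size of the regular part -/
theorem norm_Zf_le {h : P × ℂ → W →L[ℂ] ℂ} {p : E → P} {X : E → ℂ} {c : E → W} {q : E} {A : ℝ}
    (hA : ‖h (p q, X q)‖ ≤ A) : ‖Zf h p X c q‖ ≤ A * ‖X q‖ * ‖c q‖ := by
  unfold Zf
  rw [norm_mul]
  have := (h (p q, X q)).le_opNorm (c q)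
  calc ‖X q‖ * ‖h (p q, X q) (c q)‖ ≤ ‖X q‖ * (A * ‖c q‖) :=
        mul_le_mul_of_nonneg_left (this.trans (mul_le_mul_of_nonneg_right hA (norm_nonneg _)))
          (norm_nonneg _)
    _ = _ := by ring

end Vale.Agent.P273.H803
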