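import Vale.Agent.P273.H803.AsyQ
import Vale.Agent.P273.H422.GenAdm

/-!
# P273, crew ASY0: the effect of the cut-off at the roots on the legs of a neck mark

`NeckForm lgU lg`: on the necks `lg = (1 - χ) lgU - E τ` with a window; `NeckForm.asy` : the fields
of `Asy` pass from `lgU` to `lg`.
-/

noncomputable section

namespace Vale.Agent.P273.H803

open Set Filter H681 H95 H732 H562 H973
open scoped Topology ContDiff

/-- the cut-off at the roots, neck marks -/
def NeckForm (lgU lg : LegF) : Prop := ∃ C N₀ : ℝ, 0 ≤ C ∧ 1 ≤ N₀ ∧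
  ∀ R m S, FarOk R S → ∀ p, Adm R m S N₀ p → ∀ j k, ∀ h : R.pl j = Sum.inl k, ∀ ξ, IsCl ξ →
    ∃ (χ E : ℝ) (τ : Co R m →L[ℝ] ℝ), 0 ≤ χ ∧ χ ≤ 1 ∧
      lg R m S j ξ p = (1 - χ) • lgU R m S j ξ p - E • τ ∧
      ((τ = 0 ∧ χ = 0) ∨ |2 * wreg.dep m p k (rkF R h) - p.2.2.1 k| ≤ C) ∧
      |E| ≤ C * (|bt ξ k| + ‖ξ‖ / p.2.2.1 k) ∧
      ((∀ l, bt ξ l = 0) → |E| ≤ C * ww ξ p.2.2.1) ∧
      (∀ d : (W R m).Dir R.Cm, (∀ l, d ≠ .y l) → |τ ((W R m).vec d)| ≤ C) ∧
      (∀ f : (W R m).Fr, (W R m).nk f.1 ≠ k →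
        τ ((W R m).vec (.u f)) = 0 ∧ τ ((W R m).vec (.ph f)) = 0) ∧
      (∀ l, l ≠ k → |τ ((W R m).vec (.al l))| ≤ C / p.2.2.1 l) ∧
      ∀ l, |τ ((W R m).eul p l)| ≤ C / p.2.2.1 l

theorem abs_bt_le (ξ : Fin 6 → ℝ) (k : Fin 3) : |bt ξ k| ≤ 2 * ‖ξ‖ := by
  have h : ∀ i, |ξ i| ≤ ‖ξ‖ := fun i => norm_le_pi_norm ξ i
  have h2 : ∀ i j, |ξ i - ξ j| ≤ 2 * ‖ξ‖ := fun i j => by
    have := abs_sub (ξ i) (ξ j)
    have h3 := h i
    have h4 := h j
    linarith
  fin_cases k
  · exact h2 1 0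
  · exact h2 3 2
  · exact h2 5 4

/-- eventually the window is not met -/
theorem eventually_no_window {R : H95.Region} {m : ∀ k, Fin (R.n k + 1)} {S : L → Bool}
    {B : Set (W R m).Fr} {p : Co R m} (hp : Gen R m S B p) {j : L} {k : Fin 3}
    (h : R.pl j = Sum.inl k) (C : ℝ) : ∀ᶠ N : ℝ in atTop,
      C < |2 * wreg.dep m ((W R m).dpt B N p) k (rkF R h) - ((W R m).dpt B N p).2.2.1 k| := by
  have h1 : 2 * depl R m B p h - p.2.2.1 k ≠ 0 := sub_ne_zero.2 (hp.2.2.2.2.2 j k h)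
  set o := ∑ g ∈ wreg.bef R.n k (rkF R h), H422.off R m B p g with ho
  have h2 : ∀ N : ℝ, 2 * wreg.dep m ((W R m).dpt B N p) k (rkF R h) -
      ((W R m).dpt B N p).2.2.1 k = (2 * depl R m B p h - p.2.2.1 k) * N + 2 * o := by
    intro N
    rw [H422.dep_dpt R m B N p h]
    have : ((W R m).dpt B N p).2.2.1 k = N * p.2.2.1 k := rfl
    rw [this]
    ring
  simp only [h2]
  have h3 : Tendsto (fun N : ℝ => |(2 * depl R m B p h - p.2.2.1 k) * N + 2 * o|) atTop atTop := by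
    rcases lt_or_gt_of_ne h1 with h4 | h4
    · refine tendsto_abs_atBot_atTop.comp ?_
      exact tendsto_atBot_add_const_right _ _ (tendsto_id.const_mul_atTop_of_neg h4)
    · refine tendsto_abs_atTop_atTop.comp ?_
      exact tendsto_atTop_add_const_right _ _ (tendsto_id.const_mul_atTop h4)
  exact h3.eventually_gt_atTop C

variable {lgU lg : LegF} {κ : Fin 3 → Fin 3 → ℝ}

/-- along the dilated points the two families agree eventually -/
theorem NeckForm.eventually (hF : NeckForm lgU lg) {R : H95.Region} {m : ∀ k, Fin (R.n k + 1)}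
    {S : L → Bool} (hS : FarOk R S) {B : Set (W R m).Fr} {p : Co R m} (hp : Gen R m S B p)
    (hy : ∀ k, 0 < p.2.2.1 k) {j : L} {k : Fin 3} (h : R.pl j = Sum.inl k) {ξ : Fin 6 → ℝ}
    (hξ : IsCl ξ) : ∀ᶠ N : ℝ in atTop,
      lg R m S j ξ ((W R m).dpt B N p) = lgU R m S j ξ ((W R m).dpt B N p) := by
  obtain ⟨C, N₀, hC, hN, H⟩ := hF
  filter_upwards [H422.gen_adm R m S hS B p hp hy N₀, eventually_no_window hp h C] with N h1 h2
  obtain ⟨χ, E, τ, -, -, e1, e2, -⟩ := H R m S hS _ h1 j k h ξ hξ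
  rcases e2 with ⟨e3, e4⟩ | e3
  · rw [e1, e3, e4]
    simp
  · exact absurd e3 (not_le.2 h2)

/-- **the cut-off at the roots keeps the fields of `Asy`** -/
theorem NeckForm.asy (hF : NeckForm lgU lg) (hU : AsyQ Neck κ lgU) : AsyQ Neck κ lg where
  b1 := by
    obtain ⟨K, N, hN, H⟩ := hU.b1
    obtain ⟨C, N', hC, hN', H'⟩ := hF
    refine ⟨|K| + C * (3 * C), max N N', hN.trans (le_max_left _ _), ?_⟩
    intro R m S hS p hp j hj ξ hξ d hd
    obtain ⟨k, hk⟩ := hj
    have hp1 := adm_mono (le_max_left N N') hp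
    have hp2 := adm_mono (le_max_right N N') hp
    have hy := adm_y_pos hN hp1 k
    have hy1 : 1 ≤ p.2.2.1 k := hN.trans (hp1.2.1 k)
    obtain ⟨χ, E, τ, c0, c1, e1, -, e3, -, e5, -, -, -⟩ := H' R m S hS p hp2 j k hk ξ hξ
    have h1 := H R m S hS p hp1 j ⟨k, hk⟩ ξ hξ d hd
    have h2 := e5 d hd
    have hb := abs_bt_le ξ k
    rw [e1]
    simp only [ContinuousLinearMap.sub_apply, ContinuousLinearMap.smul_apply, smul_eq_mul]
    have h3 : |(1 - χ) * lgU R m S j ξ p ((W R m).vec d)| ≤ |K| * ‖ξ‖ := by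
      rw [abs_mul, abs_of_nonneg (by linarith : (0 : ℝ) ≤ 1 - χ)]
      calc (1 - χ) * |lgU R m S j ξ p ((W R m).vec d)|
          ≤ 1 * |lgU R m S j ξ p ((W R m).vec d)| :=
            mul_le_mul_of_nonneg_right (by linarith) (abs_nonneg _)
        _ ≤ K * ‖ξ‖ := by rw [one_mul]; exact h1
        _ ≤ |K| * ‖ξ‖ := mul_le_mul_of_nonneg_right (le_abs_self K) (norm_nonneg _)
    have h4 : |E| ≤ C * (3 * ‖ξ‖) := by
      refine e3.trans (mul_le_mul_of_nonneg_left ?_ hC)
      have : ‖ξ‖ / p.2.2.1 k ≤ ‖ξ‖ := div_le_self (norm_nonneg _) hy1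
      linarith
    have h5 : |E * τ ((W R m).vec d)| ≤ C * (3 * ‖ξ‖) * C := by
      rw [abs_mul]
      exact mul_le_mul h4 h2 (abs_nonneg _) (by positivity)
    refine (abs_sub _ _).trans ?_
    calc _ ≤ |K| * ‖ξ‖ + C * (3 * ‖ξ‖) * C := add_le_add h3 h5
      _ = _ := by ring
  b2 := by
    obtain ⟨K, N, hN, H⟩ := hU.b2
    obtain ⟨C, N', hC, hN', H'⟩ := hF
    refine ⟨|K| + C * C, max N N', hN.trans (le_max_left _ _), ?_⟩
    intro R m S hS p hp j hj ξ hξ f d hd
    obtain ⟨k, hk⟩ := hj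
    have hp1 := adm_mono (le_max_left N N') hp
    have hp2 := adm_mono (le_max_right N N') hp
    have hy := adm_y_pos hN hp1 k
    have hyf := adm_y_pos hN hp1 ((W R m).nk f.1)
    obtain ⟨χ, E, τ, c0, c1, e1, -, e3, -, e5, e6, -, -⟩ := H' R m S hS p hp2 j k hk ξ hξ
    have h1 := H R m S hS p hp1 j ⟨k, hk⟩ ξ hξ f d hd
    have hdy : ∀ l, d ≠ .y l := by
      rintro l rfl
      rcases hd with h | h <;> cases h
    have h2 := e5 d hdy
    set X := |bt ξ ((W R m).nk f.1)| +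
        ‖ξ‖ * (1 / p.2.2.1 ((W R m).nk f.1) + Real.exp (-p.1 f)) with hX
    have hX0 : 0 ≤ X := by positivity
    rw [e1]
    simp only [ContinuousLinearMap.sub_apply, ContinuousLinearMap.smul_apply, smul_eq_mul]
    have h3 : |(1 - χ) * lgU R m S j ξ p ((W R m).vec d)| ≤ |K| * X := by
      rw [abs_mul, abs_of_nonneg (by linarith : (0 : ℝ) ≤ 1 - χ)]
      calc (1 - χ) * |lgU R m S j ξ p ((W R m).vec d)|
          ≤ 1 * |lgU R m S j ξ p ((W R m).vec d)| :=
            mul_le_mul_of_nonneg_right (by linarith) (abs_nonneg _)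
        _ ≤ K * X := by rw [one_mul]; exact h1
        _ ≤ |K| * X := mul_le_mul_of_nonneg_right (le_abs_self K) hX0
    have h5 : |E * τ ((W R m).vec d)| ≤ C * X * C := by
      by_cases hfk : (W R m).nk f.1 = k
      · rw [abs_mul]
        have h6 : |E| ≤ C * X := by
          refine e3.trans (mul_le_mul_of_nonneg_left ?_ hC)
          rw [hX, hfk, mul_add]
          have : 0 ≤ ‖ξ‖ * Real.exp (-p.1 f) := by positivity
          rw [mul_one_div]
          linarith
        exact mul_le_mul h6 h2 (abs_nonneg _) (by positivity)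
      · have h7 : τ ((W R m).vec d) = 0 := by
          rcases hd with rfl | rfl
          · exact (e6 f hfk).1
          · exact (e6 f hfk).2
        rw [h7, mul_zero, abs_zero]
        positivity
    refine (abs_sub _ _).trans ?_
    calc _ ≤ |K| * X + C * X * C := add_le_add h3 h5
      _ = _ := by ring
  b4 := by
    obtain ⟨K, N, hN, H⟩ := hU.b4
    obtain ⟨C, N', hC, hN', H'⟩ := hF
    refine ⟨|K| + C * (3 * C), max N N', hN.trans (le_max_left _ _), ?_⟩
    intro R m S hS p hp j hj ξ hξ l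
    obtain ⟨k, hk⟩ := hj
    have hp1 := adm_mono (le_max_left N N') hp
    have hp2 := adm_mono (le_max_right N N') hp
    have hy := adm_y_pos hN hp1 k
    have hyl := adm_y_pos hN hp1 l
    have hy1 : 1 ≤ p.2.2.1 k := hN.trans (hp1.2.1 k)
    obtain ⟨χ, E, τ, c0, c1, e1, -, e3, -, e5, -, e7, -⟩ := H' R m S hS p hp2 j k hk ξ hξ
    have h1 := H R m S hS p hp1 j ⟨k, hk⟩ ξ hξ l
    have h2 := e5 (.al l) (fun l' h => by cases h)
    have hb := abs_bt_le ξ k
    set X := |bt ξ l| + ‖ξ‖ / p.2.2.1 l with hX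
    have hX0 : 0 ≤ X := by positivity
    rw [e1]
    simp only [ContinuousLinearMap.sub_apply, ContinuousLinearMap.smul_apply, smul_eq_mul]
    have h3 : |(1 - χ) * lgU R m S j ξ p ((W R m).vec (.al l))| ≤ |K| * X := by
      rw [abs_mul, abs_of_nonneg (by linarith : (0 : ℝ) ≤ 1 - χ)]
      calc (1 - χ) * |lgU R m S j ξ p ((W R m).vec (.al l))|
          ≤ 1 * |lgU R m S j ξ p ((W R m).vec (.al l))| :=
            mul_le_mul_of_nonneg_right (by linarith) (abs_nonneg _)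
        _ ≤ K * X := by rw [one_mul]; exact h1
        _ ≤ |K| * X := mul_le_mul_of_nonneg_right (le_abs_self K) hX0
    have h5 : |E * τ ((W R m).vec (.al l))| ≤ C * (3 * C) * X := by
      by_cases hlk : l = k
      · subst hlk
        rw [abs_mul]
        calc |E| * |τ ((W R m).vec (.al l))| ≤ C * X * C :=
              mul_le_mul e3 h2 (abs_nonneg _) (by positivity)
          _ ≤ C * (3 * C) * X := by
              have : 0 ≤ C * C * X := by positivity
              linarith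
      · have h6 := e7 l hlk
        have h4 : |E| ≤ C * (3 * ‖ξ‖) := by
          refine e3.trans (mul_le_mul_of_nonneg_left ?_ hC)
          have : ‖ξ‖ / p.2.2.1 k ≤ ‖ξ‖ := div_le_self (norm_nonneg _) hy1
          linarith
        rw [abs_mul]
        calc |E| * |τ ((W R m).vec (.al l))| ≤ C * (3 * ‖ξ‖) * (C / p.2.2.1 l) :=
              mul_le_mul h4 h6 (abs_nonneg _) (by positivity)
          _ = C * (3 * C) * (‖ξ‖ / p.2.2.1 l) := by ring
          _ ≤ C * (3 * C) * X := by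
              refine mul_le_mul_of_nonneg_left ?_ (by positivity)
              rw [hX]
              have := abs_nonneg (bt ξ l)
              linarith
    refine (abs_sub _ _).trans ?_
    calc _ ≤ |K| * X + C * (3 * C) * X := add_le_add h3 h5
      _ = _ := by ring
  b5 := by
    obtain ⟨K, N, hN, H⟩ := hU.b5
    obtain ⟨C, N', hC, hN', H'⟩ := hF
    refine ⟨|K| + C * (3 * C), max N N', hN.trans (le_max_left _ _), ?_⟩
    intro R m S hS p hp j hj ξ hξ l
    obtain ⟨k, hk⟩ := hj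
    have hp1 := adm_mono (le_max_left N N') hp
    have hp2 := adm_mono (le_max_right N N') hp
    have hy := adm_y_pos hN hp1 k
    have hyl := adm_y_pos hN hp1 l
    have hy1 : 1 ≤ p.2.2.1 k := hN.trans (hp1.2.1 k)
    obtain ⟨χ, E, τ, c0, c1, e1, -, e3, -, -, -, -, e8⟩ := H' R m S hS p hp2 j k hk ξ hξ
    have h1 := H R m S hS p hp1 j ⟨k, hk⟩ ξ hξ l
    have h2 := e8 l
    have hb := abs_bt_le ξ k
    have hX0 : 0 ≤ ‖ξ‖ / p.2.2.1 l := by positivity
    rw [e1]
    simp only [ContinuousLinearMap.sub_apply, ContinuousLinearMap.smul_apply, smul_eq_mul]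
    have h3 : |(1 - χ) * lgU R m S j ξ p ((W R m).eul p l)| ≤ |K| * (‖ξ‖ / p.2.2.1 l) := by
      rw [abs_mul, abs_of_nonneg (by linarith : (0 : ℝ) ≤ 1 - χ)]
      calc (1 - χ) * |lgU R m S j ξ p ((W R m).eul p l)|
          ≤ 1 * |lgU R m S j ξ p ((W R m).eul p l)| :=
            mul_le_mul_of_nonneg_right (by linarith) (abs_nonneg _)
        _ ≤ K * (‖ξ‖ / p.2.2.1 l) := by rw [one_mul]; exact h1
        _ ≤ |K| * (‖ξ‖ / p.2.2.1 l) := mul_le_mul_of_nonneg_right (le_abs_self K) hX0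
    have h4 : |E| ≤ C * (3 * ‖ξ‖) := by
      refine e3.trans (mul_le_mul_of_nonneg_left ?_ hC)
      have : ‖ξ‖ / p.2.2.1 k ≤ ‖ξ‖ := div_le_self (norm_nonneg _) hy1
      linarith
    have h5 : |E * τ ((W R m).eul p l)| ≤ C * (3 * ‖ξ‖) * (C / p.2.2.1 l) := by
      rw [abs_mul]
      exact mul_le_mul h4 h2 (abs_nonneg _) (by positivity)
    refine (abs_sub _ _).trans ?_
    calc _ ≤ |K| * (‖ξ‖ / p.2.2.1 l) + C * (3 * ‖ξ‖) * (C / p.2.2.1 l) := add_le_add h3 h5
      _ = _ := by ring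
  b6 := by
    obtain ⟨K, N, hN, H⟩ := hU.b6
    obtain ⟨C, N', hC, hN', H'⟩ := hF
    refine ⟨|K| + C * C, max N N', hN.trans (le_max_left _ _), ?_⟩
    intro R m S hS p hp j hj ξ hξ hb
    obtain ⟨k, hk⟩ := hj
    have hp1 := adm_mono (le_max_left N N') hp
    have hp2 := adm_mono (le_max_right N N') hp
    have hy := adm_y_pos hN hp1
    have hy1 : ∀ k, 1 ≤ p.2.2.1 k := fun k => hN.trans (hp1.2.1 k)
    have hw := ww_nonneg ξ hy
    have hm1 := one_le_mn hy1
    obtain ⟨χ, E, τ, c0, c1, e1, -, -, e4, e5, -, -, e8⟩ := H' R m S hS p hp2 j k hk ξ hξ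
    have h4 := e4 hb
    obtain ⟨h1, h2⟩ := H R m S hS p hp1 j ⟨k, hk⟩ ξ hξ hb
    constructor
    · intro d hd
      have h1' := h1 d hd
      have h2' := e5 d hd
      rw [e1]
      simp only [ContinuousLinearMap.sub_apply, ContinuousLinearMap.smul_apply, smul_eq_mul]
      have h3 : |(1 - χ) * lgU R m S j ξ p ((W R m).vec d)| ≤ |K| * ww ξ p.2.2.1 := by
        rw [abs_mul, abs_of_nonneg (by linarith : (0 : ℝ) ≤ 1 - χ)]
        calc (1 - χ) * |lgU R m S j ξ p ((W R m).vec d)|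
            ≤ 1 * |lgU R m S j ξ p ((W R m).vec d)| :=
              mul_le_mul_of_nonneg_right (by linarith) (abs_nonneg _)
          _ ≤ K * ww ξ p.2.2.1 := by rw [one_mul]; exact h1'
          _ ≤ |K| * ww ξ p.2.2.1 := mul_le_mul_of_nonneg_right (le_abs_self K) hw
      have h5 : |E * τ ((W R m).vec d)| ≤ C * ww ξ p.2.2.1 * C := by
        rw [abs_mul]
        exact mul_le_mul h4 h2' (abs_nonneg _) (by positivity)
      refine (abs_sub _ _).trans ?_
      calc _ ≤ |K| * ww ξ p.2.2.1 + C * ww ξ p.2.2.1 * C := add_le_add h3 h5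
        _ = _ := by ring
    · intro l
      have h1' := h2 l
      have h2' := e8 l
      have hyl := hy l
      have hX0 : 0 ≤ ww ξ p.2.2.1 * (mn p.2.2.1 / p.2.2.1 l) := by positivity
      rw [e1]
      simp only [ContinuousLinearMap.sub_apply, ContinuousLinearMap.smul_apply, smul_eq_mul]
      have h3 : |(1 - χ) * lgU R m S j ξ p ((W R m).eul p l)| ≤
          |K| * (ww ξ p.2.2.1 * (mn p.2.2.1 / p.2.2.1 l)) := by
        rw [abs_mul, abs_of_nonneg (by linarith : (0 : ℝ) ≤ 1 - χ)]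
        calc (1 - χ) * |lgU R m S j ξ p ((W R m).eul p l)|
            ≤ 1 * |lgU R m S j ξ p ((W R m).eul p l)| :=
              mul_le_mul_of_nonneg_right (by linarith) (abs_nonneg _)
          _ ≤ K * (ww ξ p.2.2.1 * (mn p.2.2.1 / p.2.2.1 l)) := by rw [one_mul]; exact h1'
          _ ≤ _ := mul_le_mul_of_nonneg_right (le_abs_self K) hX0
      have h5 : |E * τ ((W R m).eul p l)| ≤
          C * C * (ww ξ p.2.2.1 * (mn p.2.2.1 / p.2.2.1 l)) := by
        rw [abs_mul]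
        calc |E| * |τ ((W R m).eul p l)| ≤ C * ww ξ p.2.2.1 * (C / p.2.2.1 l) :=
              mul_le_mul h4 h2' (abs_nonneg _) (by positivity)
          _ = C * C * (ww ξ p.2.2.1 * (1 / p.2.2.1 l)) := by ring
          _ ≤ C * C * (ww ξ p.2.2.1 * (mn p.2.2.1 / p.2.2.1 l)) := by
              have h6 : 1 / p.2.2.1 l ≤ mn p.2.2.1 / p.2.2.1 l :=
                div_le_div_of_nonneg_right hm1 hyl.le
              exact mul_le_mul_of_nonneg_left (mul_le_mul_of_nonneg_left h6 hw) (by positivity)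
      refine (abs_sub _ _).trans ?_
      calc _ ≤ |K| * (ww ξ p.2.2.1 * (mn p.2.2.1 / p.2.2.1 l)) +
            C * C * (ww ξ p.2.2.1 * (mn p.2.2.1 / p.2.2.1 l)) := add_le_add h3 h5
        _ = _ := by ring
  limN R m S hS B p hp hy j hj k hk ξ hξ d hd := by
    refine (hU.limN R m S hS B p hp hy j hj k hk ξ hξ d hd).congr' ?_
    filter_upwards [hF.eventually hS hp hy hk hξ] with N hN
    rw [hN]
  limC R m S hS B p hp hy j hj b hb ξ hξ d hd := by
    obtain ⟨k, hk⟩ := hj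
    rw [hk] at hb
    cases hb
  lim0 R m S hS B p hp hy j hj ξ hξ hb := by
    obtain ⟨k, hk⟩ := hj
    obtain ⟨h1, h2⟩ := hU.lim0 R m S hS B p hp hy j ⟨k, hk⟩ ξ hξ hb
    refine ⟨fun f hf => (h1 f hf).congr' ?_, fun l => (h2 l).congr' ?_⟩
    · filter_upwards [hF.eventually hS hp hy hk hξ] with N hN
      rw [hN]
    · filter_upwards [hF.eventually hS hp hy hk hξ] with N hN
      rw [hN]

end Vale.Agent.P273.H803

end
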